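import Vale.Agent.P167.H713.Q.Cnv

/-!
# P167, general `q`, [SAND-GEO]: unread squares and components

* `io_sub`: the open unread squares are in the domain `Dn` (as far as they are in `Om`);
* `clos`: a point of a closed square in `Om` is in the closure of the open square in `Om`;
* `io_Cn`, `corner_Cn`: a closed unread square which meets the component `Cn z ρ u` is in it.
-/

set_option autoImplicit false

namespace Vale.Agent.P167.H713.Q

open Set Filter Topology Metric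
open Vale.Agent.P167.E6 Vale.Agent.P167.E2
open Vale.Agent.P167.H634 (RO LO SqD Sq1)
open Vale.Agent.P167.H72.SD (dk)
open Vale.Agent.P167.H161 (zp Rd mem_Rd)
open Vale.Agent.P167.FKA (Cor)

theorem clos_Io {δ : ℝ} (hδ : 0 < δ) (v : ℤ × ℤ) : SqD δ v ⊆ closure (Io δ v) := by
  intro a ha
  obtain ⟨⟨a1, a2⟩, a3, a4⟩ := (mem_SqD hδ).1 ha
  -- the centre
  set q : ℂ := ⟨δ * (v.1 + v.2 + 1) / 2, δ * (v.2 - v.1) / 2⟩ with hq
  have q1 : q.re - q.im = δ * (v.1 + 1 / 2) := by simp only [hq]; ring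
  have q2 : q.re + q.im = δ * (v.2 + 1 / 2) := by simp only [hq]; ring
  have ht : Tendsto (fun t : ℝ => a + (t : ℂ) * (q - a)) (𝓝[>] 0) (𝓝 a) := by
    have h1 : Continuous fun t : ℝ => a + (t : ℂ) * (q - a) := by fun_prop
    have h2 := (h1.tendsto 0).mono_left (nhdsWithin_le_nhds (s := Ioi (0 : ℝ)))
    simpa using h2
  refine mem_closure_of_tendsto ht ?_
  have h3 : ∀ᶠ t : ℝ in 𝓝[>] 0, t < 1 :=
    (eventually_lt_nhds zero_lt_one).filter_mono nhdsWithin_le_nhds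
  filter_upwards [h3, self_mem_nhdsWithin] with t ht1 ht0
  have ht0' : 0 < t := ht0
  have e1 : (a + (t : ℂ) * (q - a)).re - (a + (t : ℂ) * (q - a)).im =
      (1 - t) * (a.re - a.im) + t * (δ * (v.1 + 1 / 2)) := by
    rw [← q1]
    simp only [Complex.add_re, Complex.add_im, Complex.re_ofReal_mul, Complex.im_ofReal_mul,
      Complex.sub_re, Complex.sub_im]
    ring
  have e2 : (a + (t : ℂ) * (q - a)).re + (a + (t : ℂ) * (q - a)).im =
      (1 - t) * (a.re + a.im) + t * (δ * (v.2 + 1 / 2)) := by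
    rw [← q2]
    simp only [Complex.add_re, Complex.add_im, Complex.re_ofReal_mul, Complex.im_ofReal_mul,
      Complex.sub_re, Complex.sub_im]
    ring
  have ht2 : 0 ≤ 1 - t := by linarith
  have hp : 0 < t * δ := by positivity
  simp only [Io, mem_ofPred_eq]
  rw [e1, e2]
  have b1 := mul_le_mul_of_nonneg_left a1 ht2
  have b2 := mul_le_mul_of_nonneg_left a2 ht2
  have b3 := mul_le_mul_of_nonneg_left a3 ht2
  have b4 := mul_le_mul_of_nonneg_left a4 ht2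
  refine ⟨⟨?_, ?_⟩, ?_, ?_⟩ <;> nlinarith

section

variable {n : ℕ} {p : ZMod n → ℤ × ℤ} {k : ℕ} {S : Finset (ℤ × ℤ)} {A : Finset (Sym2 (ℤ × ℤ))}
  {j : ℕ} {δ : ℝ} {v s z : ℤ × ℤ} {u w : ℂ} {ρ : ℝ}

/-- The closure of the part in `Om`. -/
theorem clos (hδ : 0 < δ) (hv : H192.ed v ∈ edges S) {a : ℂ} (ha : a ∈ SqD δ v)
    (hO : a ∈ Om δ S) : a ∈ closure (Io δ v ∩ Om δ S) := by
  obtain ⟨K, h1, h2, h3⟩ := exists_K hδ hv
  have e : Io δ v ∩ Om δ S = Io δ v ∩ K := by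
    ext w
    constructor
    · rintro ⟨g1, g2⟩
      exact ⟨g1, (h3 w (Io_sub hδ v g1)).1 g2⟩
    · rintro ⟨g1, g2⟩
      exact ⟨g1, (h3 w (Io_sub hδ v g1)).2 g2⟩
  rw [e, mem_closure_iff_nhds]
  intro t ht
  have h4 : t ∩ K ∈ 𝓝 a := inter_mem ht (h2.mem_nhds ((h3 a ha).1 hO))
  obtain ⟨w, ⟨g1, g2⟩, g3⟩ := mem_closure_iff_nhds.1 (clos_Io hδ v ha) _ h4
  exact ⟨w, g1, g3, g2⟩

theorem conv_io (hδ : 0 < δ) (hv : H192.ed v ∈ edges S) : Convex ℝ (Io δ v ∩ Om δ S) := by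
  obtain ⟨K, h1, h2, h3⟩ := exists_K hδ hv
  have e : Io δ v ∩ Om δ S = Io δ v ∩ K := by
    ext w
    constructor
    · rintro ⟨g1, g2⟩
      exact ⟨g1, (h3 w (Io_sub hδ v g1)).1 g2⟩
    · rintro ⟨g1, g2⟩
      exact ⟨g1, (h3 w (Io_sub hδ v g1)).2 g2⟩
  rw [e]
  exact (convex_Io δ v).inter h1

theorem edges_of_dk (hv : v ∈ dk p k S A j) : H192.ed v ∈ edges S :=
  (H718.mem_Dq'.1 (Finset.mem_sdiff.1 hv).1).1

/-- **The open unread squares are in the domain.** -/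
theorem io_sub (hδ : 0 < δ) (hA : A ⊆ edges S) (hj : j - 1 ≤ len p k A)
    (hv : v ∈ dk p k S A j) : Io δ v ∩ Om δ S ⊆ Dn p k S A j δ :=
  fun _ h => ⟨h.2, io_pl hδ hA hj hv h.1⟩

theorem site_Dn (hδ : 0 < δ) (hj : j - 1 ≤ len p k A) (h : zp δ s ∈ Om δ S) :
    zp δ s ∈ Dn p k S A j δ := ⟨h, site_pl hδ hj s⟩

theorem isOpen_Dn (hδ : 0 < δ) : IsOpen (Dn p k S A j δ) := by
  have h1 : IsCompact (pl p k δ A '' Icc 0 (j : ℝ)) :=
    isCompact_Icc.image (continuous_pl δ)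
  exact (H327.isOpen_Om hδ S).sdiff h1.isClosed

theorem isOpen_Cn (hδ : 0 < δ) : IsOpen (Cn p k S A j δ z ρ u) :=
  ((isOpen_Dn hδ).inter (isOpen_oR δ z ρ)).connectedComponentIn

theorem Cn_sub : Cn p k S A j δ z ρ u ⊆ Dn p k S A j δ ∩ oR δ z ρ :=
  connectedComponentIn_subset _ _

theorem conn_Cn : IsPreconnected (Cn p k S A j δ z ρ u) := isPreconnected_connectedComponentIn

theorem Cn_mono (hδ : 0 < δ) {r r' : ℝ} (h : r ≤ r') :
    Cn p k S A j δ z r u ⊆ Cn p k S A j δ z r' u := by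
  refine connectedComponentIn_mono u (inter_subset_inter_right _ ?_)
  rintro x ⟨h1, h2⟩
  have h3 := mul_le_mul_of_nonneg_left h hδ.le
  exact ⟨h1.trans_le h3, h2.trans_le h3⟩

/-- The components in the box of radius `ρ`. -/
theorem Cfl.su' (hδ : 0 < δ) {c : Bool} {ρ R : ℕ} (h : Cfl p k S A j δ c z ρ R u w) :
    Disjoint (Cn p k S A j δ z ρ u) (Sd p k S A j δ c) :=
  h.su.mono_left (Cn_mono hδ (by linarith))

/-- A connected set which meets the component is in it. -/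
theorem sub_Cn {C : Set ℂ} (hC : IsPreconnected C) (hCD : C ⊆ Dn p k S A j δ ∩ oR δ z ρ)
    (h : (C ∩ Cn p k S A j δ z ρ u).Nonempty) : C ⊆ Cn p k S A j δ z ρ u := by
  obtain ⟨x, hx1, hx2⟩ := h
  have h1 : IsPreconnected (Cn p k S A j δ z ρ u ∪ C) := conn_Cn.union x hx2 hx1 hC
  have hu : u ∈ Cn p k S A j δ z ρ u := by
    have h2 : (Cn p k S A j δ z ρ u).Nonempty := ⟨x, hx2⟩
    exact mem_connectedComponentIn (connectedComponentIn_nonempty_iff.1 h2)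
  exact subset_union_right.trans
    (h1.subset_connectedComponentIn (Or.inl hu) (union_subset Cn_sub hCD))

theorem cor_SqD (hδ : 0 < δ) (h : Cor v s) : zp δ s ∈ SqD δ v := by
  obtain ⟨e1, e2⟩ := zp_coord δ s
  rw [mem_SqD hδ, e1, e2]
  obtain ⟨h1, h2⟩ := h
  have key : ∀ a b : ℤ, (a = b ∨ a = b + 1) → δ * b ≤ δ * a ∧ δ * a ≤ δ * (b + 1) := by
    rintro a b (rfl | rfl)
    · constructor <;> nlinarith
    · push_cast
      constructor <;> nlinarith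
  exact ⟨key _ _ h1, key _ _ h2⟩

/-- A square with a point of its open square in the region is in the box. -/
theorem io_oR (hδ : 0 < δ) {N : ℕ} {x : ℂ} (hx : x ∈ Io δ v) (hR : x ∈ oR δ z N) :
    Io δ v ⊆ oR δ z N := by
  obtain ⟨⟨a1, a2⟩, a3, a4⟩ := hx
  obtain ⟨b1, b2⟩ := hR
  rw [abs_lt] at b1 b2
  have c1 : z.1 - N ≤ v.1 := by
    have h : δ * ((z.1 : ℝ) - N) < δ * (v.1 + 1) := by nlinarith [b1.1]
    have h2 : (z.1 : ℝ) - N < v.1 + 1 := lt_of_mul_lt_mul_left h hδ.le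
    have h3 : z.1 - N < v.1 + 1 := by exact_mod_cast h2
    omega
  have c2 : v.1 + 1 ≤ z.1 + N := by
    have h : δ * (v.1 : ℝ) < δ * (z.1 + N) := by nlinarith [b1.2]
    have h2 : (v.1 : ℝ) < z.1 + N := lt_of_mul_lt_mul_left h hδ.le
    have h3 : v.1 < z.1 + N := by exact_mod_cast h2
    omega
  have c3 : z.2 - N ≤ v.2 := by
    have h : δ * ((z.2 : ℝ) - N) < δ * (v.2 + 1) := by nlinarith [b2.1]
    have h2 : (z.2 : ℝ) - N < v.2 + 1 := lt_of_mul_lt_mul_left h hδ.le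
    have h3 : z.2 - N < v.2 + 1 := by exact_mod_cast h2
    omega
  have c4 : v.2 + 1 ≤ z.2 + N := by
    have h : δ * (v.2 : ℝ) < δ * (z.2 + N) := by nlinarith [b2.2]
    have h2 : (v.2 : ℝ) < z.2 + N := lt_of_mul_lt_mul_left h hδ.le
    have h3 : v.2 < z.2 + N := by exact_mod_cast h2
    omega
  have d1 : (z.1 : ℝ) - N ≤ v.1 := by exact_mod_cast c1
  have d2 : (v.1 : ℝ) + 1 ≤ z.1 + N := by exact_mod_cast c2
  have d3 : (z.2 : ℝ) - N ≤ v.2 := by exact_mod_cast c3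
  have d4 : (v.2 : ℝ) + 1 ≤ z.2 + N := by exact_mod_cast c4
  have f1 := mul_le_mul_of_nonneg_left d1 hδ.le
  have f2 := mul_le_mul_of_nonneg_left d2 hδ.le
  have f3 := mul_le_mul_of_nonneg_left d3 hδ.le
  have f4 := mul_le_mul_of_nonneg_left d4 hδ.le
  rintro y ⟨⟨g1, g2⟩, g3, g4⟩
  refine ⟨abs_lt.2 ⟨?_, ?_⟩, abs_lt.2 ⟨?_, ?_⟩⟩ <;> nlinarith

variable {N : ℕ}

/-- **A closed unread square which meets the component.** -/
theorem io_Cn (hδ : 0 < δ) (hA : A ⊆ edges S) (hj : j - 1 ≤ len p k A)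
    (hv : v ∈ dk p k S A j) (h : (SqD δ v ∩ Cn p k S A j δ z N u).Nonempty) :
    Io δ v ⊆ oR δ z N ∧ Io δ v ∩ Om δ S ⊆ Cn p k S A j δ z N u := by
  obtain ⟨x, hx1, hx2⟩ := h
  have hxO : x ∈ Om δ S := (Cn_sub hx2).1.1
  have h1 := clos hδ (edges_of_dk hv) hx1 hxO
  obtain ⟨y, hy1, hy2⟩ := mem_closure_iff_nhds.1 h1 _ ((isOpen_Cn hδ).mem_nhds hx2)
  have h2 := io_oR hδ hy2.1 (Cn_sub hy1).2
  refine ⟨h2, sub_Cn (conv_io hδ (edges_of_dk hv)).isPreconnected (fun w hw =>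
    ⟨io_sub hδ hA hj hv hw, h2 hw.1⟩) ⟨y, hy2, hy1⟩⟩

/-- The corners inside of the region. -/
theorem corner_Cn (hδ : 0 < δ) (hA : A ⊆ edges S) (hj : j - 1 ≤ len p k A)
    (hv : v ∈ dk p k S A j) (h : (SqD δ v ∩ Cn p k S A j δ z N u).Nonempty) (hs : Cor v s)
    (hO : zp δ s ∈ Om δ S) (hR : zp δ s ∈ oR δ z N) : zp δ s ∈ Cn p k S A j δ z N u := by
  obtain ⟨h1, h2⟩ := io_Cn hδ hA hj hv h
  have h3 : IsPreconnected ((Io δ v ∩ Om δ S) ∪ {zp δ s}) := by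
    refine (conv_io hδ (edges_of_dk hv)).isPreconnected.subset_closure subset_union_left ?_
    refine union_subset subset_closure ?_
    rw [singleton_subset_iff]
    exact clos hδ (edges_of_dk hv) (cor_SqD hδ hs) hO
  obtain ⟨x, hx1, hx2⟩ := h
  have hxO : x ∈ Om δ S := (Cn_sub hx2).1.1
  obtain ⟨y, hy1, hy2⟩ := mem_closure_iff_nhds.1 (clos hδ (edges_of_dk hv) hx1 hxO) _
    ((isOpen_Cn hδ).mem_nhds hx2)
  exact sub_Cn h3 (union_subset (fun w hw => ⟨io_sub hδ hA hj hv hw, h1 hw.1⟩)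
    (singleton_subset_iff.2 ⟨site_Dn hδ hj hO, hR⟩)) ⟨y, Or.inl hy2, hy1⟩ (Or.inr rfl)

end

end Vale.Agent.P167.H713.Q
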