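import Vale.Agent.P167.H713.Q.Comp
import Vale.Agent.P167.H72.SD.Lat2

/-!
# P167, general `q`, [SAND-GEO]: the interface between the continuum part and the lattice part

One history (`p k S A j`, mesh `δ`), one colour `c` (`c = true`: the free side of the shape is pushed in,
the wired side is pushed out, `Bad` is open; `c = false`: the converse).
* `Pm`: the open set of the shape, `P` its squares, `ζ` the configuration outside of the shape;
* `O`: the union of the obstacles, disjoint from the closed squares of `dk \ Bd`;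
* `Fl`: the common flat part; `x₀`: the base square.
* `s3`: the connected sets seen from the base square in `Dn \ O` and in the closed shape are away from
  the side `Sd c`; `s4`: the sites of the boundary of the shape on such sets are not on the pushed-out
  side of the shape.
-/

set_option autoImplicit false

namespace Vale.Agent.P167.H713.Q

open Set Filter Topology Metric Relation
open Vale.Agent.P167.E6 Vale.Agent.P167.E2
open Vale.Agent.P167.H634 (RO LO SqD Sq1)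
open Vale.Agent.P167.H72.SD (dk om Wr Kc LB RB ComS)
open Vale.Agent.P167.H161 (zp Rd mem_Rd)
open Vale.Agent.P167.FKA (Cor)

/-- `y` is joined near `y` in `D` to a point of `X`. -/
def NearS (D X : Set ℂ) (h : ℝ) (y : ℂ) : Prop :=
  ∃ C : Set ℂ, IsPreconnected C ∧ C ⊆ D ∧ C ⊆ ball y h ∧ y ∈ C ∧ (C ∩ X).Nonempty

/-- The connected sets seen from the base square. -/
structure Seen (D O Pm : Set ℂ) (δ : ℝ) (x₀ : ℤ × ℤ) (X : Set ℂ) : Prop where
  conn : IsPreconnected X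
  sub : X ⊆ D
  off : Disjoint X O
  cl : X ⊆ closure Pm
  base : (X ∩ Io δ x₀).Nonempty

/-- The condition on the sites of the boundary of the shape: not on the pushed-out side. -/
def Arc (c : Bool) (P : Finset (ℤ × ℤ)) (ζ : Cfg) (WP arcP : Set (ℤ × ℤ)) (s : ℤ × ℤ) : Prop :=
  if c then ((s.1 + s.2) % 2 = 0 → ∀ y, y ∉ P → Cor y s → ζ y = false) ∧
    ((s.1 + s.2) % 2 = 1 → s ∈ arcP)
  else ((s.1 + s.2) % 2 = 0 → s ∈ WP) ∧ ((s.1 + s.2) % 2 = 1 → s ∉ arcP)

/-- **The seam.** -/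
structure Seam {n : ℕ} (c : Bool) (p : ZMod n → ℤ × ℤ) (k : ℕ) (S : Finset (ℤ × ℤ))
    (A : Finset (Sym2 (ℤ × ℤ))) (j : ℕ) (δ : ℝ) (Bd P : Finset (ℤ × ℤ)) (ζ : Cfg)
    (W WP arcP : Set (ℤ × ℤ)) (x₀ : ℤ × ℤ) (Pm O Fl : Set ℂ) : Prop where
  p1 : ∀ x ∈ P, Io δ x ⊆ Pm
  p2 : ∀ y, y ∉ P → Disjoint (Io δ y) Pm
  popen : IsOpen Pm
  x₀P : x₀ ∈ P
  x₀d : x₀ ∈ dk p k S A j
  x₀b : x₀ ∉ Bd
  ob : ∀ x ∈ dk p k S A j, x ∉ Bd → Disjoint (SqD δ x) O
  s3 : ∀ X, Seen (Dn p k S A j δ) O Pm δ x₀ X → ∀ y ∈ X,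
    NearS (Dn p k S A j δ) (Sd p k S A j δ c) (6 * δ) y → y ∈ Fl
  /-- the sites on the boundary of the shape at unread squares outside of the shape -/
  s4 : ∀ X, Seen (Dn p k S A j δ) O Pm δ x₀ X → ∀ s, zp δ s ∈ X → zp δ s ∈ frontier Pm →
    (∃ y ∈ dk p k S A j, y ∉ Bd ∧ y ∉ P ∧ Cor y s) → Arc c P ζ WP arcP s
  /-- near the flat part the squares are not read, not in `Bd`, and those of the shape are in the
  domain (`c = true`: at even sites, `c = false`: at odd sites) -/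
  com : ∀ y ∈ Fl, ∀ s, dist y (zp δ s) ≤ 6 * δ → (s.1 + s.2) % 2 = (if c then 0 else 1) →
    (∃ v ∈ H718.Dq S p k, Cor v s) → (∃ v ∈ P, Cor v s) → ComS p k S A j Bd P s
  /-- `c = true`: the outer squares which are wired for the shape are wired for the domain -/
  cout : c = true → ∀ y ∈ Fl, ∀ s, dist y (zp δ s) ≤ 6 * δ → (s.1 + s.2) % 2 = 0 →
    (∃ v ∈ H718.Dq S p k, Cor v s) → (∃ v ∈ P, Cor v s) →
    ∀ v, Cor v s → v ∉ P → v ∉ H718.Dq S p k → ζ v = true → om p k A v = true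
  /-- `c = false`: the wired sites of the domain are wired sites of the shape -/
  wpf : c = false → ∀ y ∈ Fl, ∀ s, dist y (zp δ s) ≤ 6 * δ → (s.1 + s.2) % 2 = 0 →
    (∃ v ∈ P, Cor v s) → (∃ v, v ∉ H718.Dq S p k ∧ om p k A v = true ∧ Cor v s) → s ∈ WP
  /-- `c = false`: no bad square near the flat part -/
  cbd : c = false → ∀ y ∈ Fl, ∀ s, dist y (zp δ s) ≤ 6 * δ → (s.1 + s.2) % 2 = 1 →
    (∃ v ∈ H718.Dq S p k, Cor v s) → ∀ v, Cor v s → v ∉ Bd
  /-- the path is far from the flat part -/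
  far : ∀ y ∈ Fl, ∀ o, o ∈ LB p k A j ∨ o ∈ RB p k A j → 6 * δ < dist y (zp δ o)
  /-- two squares which have an outer face in common near the flat part have also a vertex in
  common -/
  flo : ∀ y ∈ Fl, ∀ s, dist y (zp δ s) ≤ 6 * δ → (s.1 + s.2) % 2 = 1 → H192.rf' s ∉ S →
    ∀ x ∈ H718.Dq S p k, ∀ x' ∈ H718.Dq S p k, Cor x s → Cor x' s →
    ∃ s', (s'.1 + s'.2) % 2 = 0 ∧ Cor x s' ∧ Cor x' s'
  /-- and if one of them is in the shape, both are in the shape -/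
  flp : ∀ y ∈ Fl, ∀ s, dist y (zp δ s) ≤ 6 * δ → (s.1 + s.2) % 2 = 1 → H192.rf' s ∉ S →
    ∀ x ∈ P, ∀ x' ∈ H718.Dq S p k, Cor x s → Cor x' s → x' ∈ P
  /-- the two target arcs near the flat part -/
  fw : ∀ y ∈ Fl, ∀ s, dist y (zp δ s) ≤ 6 * δ → (s.1 + s.2) % 2 = 1 →
    (∃ v ∈ P, Cor v s) → (∃ v ∈ H718.Dq S p k, Cor v s) →
    (c = true → s ∈ W → s ∈ arcP) ∧ (c = false → s ∈ arcP → s ∈ W)
  /-- the outer faces are in the target or near the flat part -/
  wfl : ∀ x ∈ H718.Dq S p k, ∀ s, (s.1 + s.2) % 2 = 1 → Cor x s → H192.rf' s ∉ S →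
    s ∈ W ∨ ∃ y ∈ Fl, dist y (zp δ s) ≤ 6 * δ
  wout : ∀ s ∈ W, (s.1 + s.2) % 2 = 1 → H192.rf' s ∉ S

end Vale.Agent.P167.H713.Q
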