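import Vale.Agent.P167.H713.Q.BadJ

/-!
# P167, general `q`, [SAND-GEO]: the fields `badj` of `Up` and of `Lo`
-/

set_option autoImplicit false

namespace Vale.Agent.P167.H713.Q

open Set Filter Topology Metric Relation
open Vale.Agent.P145.FB (PStep)
open Vale.Agent.P167.E6 Vale.Agent.P167.E2
open Vale.Agent.P167.H634 (RO LO SqD Sq1 Dm Dm_sq Near PSt DSt Fr Avo near_of_closure cf)
open Vale.Agent.P167.H72.SD (dk om Wr Kc WD ed_sqr_dir)
open Vale.Agent.P167.H161 (zp Rd mem_Rd)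
open Vale.Agent.P167.FKA (Cor)

section

variable {n : ℕ} {p : ZMod n → ℤ × ℤ} {k : ℕ} {S : Finset (ℤ × ℤ)} {A : Finset (Sym2 (ℤ × ℤ))}
  {j : ℕ} {δ : ℝ} {v s z : ℤ × ℤ} {u w : ℂ} {ρ R : ℕ}

/-- The square of a fresh edge is not read. -/
theorem fr_dk (hA : A ⊆ edges S) {a : ℤ × ℤ} {r : Fin 4}
    (h : Fr p k S A ∅ (j - 1) s(a, a + dir r)) : H192.sq s(a, a + dir r) ∈ dk p k S A j := by
  obtain ⟨h1, h2, -, h4⟩ := h
  have hq : H192.sq s(a, a + dir r) ∈ H718.Dq S p k := by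
    rw [H718.mem_Dq ⟨a, r, rfl⟩]
    exact ⟨h1, fun h => h2 (H718.mem_wE.1 h)⟩
  refine Finset.mem_sdiff.2 ⟨hq, fun h => ?_⟩
  obtain ⟨-, i, hi, h5⟩ := (mem_Rd hA).1 h
  refine h4 i hi ?_
  have h6 := congrArg H192.ed h5
  rwa [H192.ed_sq (H192.isEdge_ahead _), H192.ed_sq ⟨a, r, rfl⟩] at h6

/-- A fresh square which meets the component of a member of a conflict pair. -/
theorem fr_bad (hδ : 0 < δ) (hA : A ⊆ edges S) {c : Bool} (hpar : Even (z.1 + z.2) ↔ c = true)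
    (hc : Cfl p k S A j δ c z ρ R u w) {a : ℤ × ℤ} {r : Fin 4}
    (h : Fr p k S A ∅ (j - 1) s(a, a + dir r))
    (h2 : (Dm δ a (a + dir r) ∩ Cn p k S A j δ z ρ u).Nonempty) :
    H192.sq s(a, a + dir r) ∈ Bad p k S A j δ c ρ R := by
  classical
  unfold Bad
  rw [Finset.mem_filter]
  refine ⟨fr_dk hA h, z, u, w, hpar, hc, ?_⟩
  rwa [← Dm_sq hδ]

theorem mem_Bad {c : Bool} : v ∈ Bad p k S A j δ c ρ R ↔ v ∈ dk p k S A j ∧
    ∃ (z : ℤ × ℤ) (u w : ℂ), (Even (z.1 + z.2) ↔ c = true) ∧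
    Cfl p k S A j δ c z ρ R u w ∧ (SqD δ v ∩ Cn p k S A j δ z ρ u).Nonempty := by
  classical
  unfold Bad
  rw [Finset.mem_filter]

theorem near_cfl (hδ : 0 < δ) (hρ : ρ ≤ R) {c : Bool} (hc : Cfl p k S A j δ c z ρ R u w) :
    ∃ x ∈ Cn p k S A j δ z ρ u, Near p k S A δ (j - 1) x := by
  have key : ∀ {x : ℂ}, x ∈ oR δ z (ρ / 2) → x ∈ oR δ z (ρ : ℝ) := by
    rintro x ⟨h1, h2⟩
    have h3 : (0 : ℝ) ≤ ρ := Nat.cast_nonneg _
    have h4 : δ * ((ρ : ℝ) / 2) ≤ δ * ρ := mul_le_mul_of_nonneg_left (by linarith) hδ.le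
    exact ⟨h1.trans_le h4, h2.trans_le h4⟩
  exact near_Cn hδ hρ hc.u_mem (key hc.u_reg) (key hc.w_reg) hc.nj

/-- The vertices of the wired arc are wired sites. -/
theorem wired_Wr (hp : IsPolygon p) (hk : k + 1 < n) {i : ℕ} (h1 : k ≤ i) (h2 : i < n) :
    H192.ro (p i) ∈ Wr (dk p k S A j) (om p k A) := by
  have key : ∀ i : ℕ, k ≤ i → i + 1 < n → ∃ v, v ∉ dk p k S A j ∧ om p k A v = true ∧
      Cor v (H192.ro (p i)) ∧ Cor v (H192.ro (p ((i + 1 : ℕ) : ZMod n))) := by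
    intro i h1 h2
    obtain ⟨r, hr⟩ := hp.2.2 (i : ZMod n)
    have e1 : p ((i + 1 : ℕ) : ZMod n) = p i + dir r := by
      rw [← hr]
      push_cast
      rfl
    have h4 : H192.ed (H192.sq s(p i, p i + dir r)) = s(p i, p (i + 1)) := by
      rw [H192.ed_sq ⟨p i, r, rfl⟩, hr]
    refine ⟨H192.sq s(p i, p i + dir r), fun h => ?_, ?_, ?_⟩
    · refine ((H718.mem_Dq').1 (Finset.mem_sdiff.1 h).1).2 ?_
      rw [h4]
      exact H718.mem_wE.2 ⟨i, h1, h2, rfl⟩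
    · exact H72.SD.om_true.2 (Or.inr ⟨i, h1, h2, h4⟩)
    · rw [e1, ← ed_sqr_dir]
      obtain ⟨h5, h6⟩ := H192.ro_dir (p i) r
      exact H72.SD.cor_sqr (A := univ) ⟨h5, h6, trivial⟩
  by_cases h3 : i + 1 < n
  · obtain ⟨v, g1, g2, g3, -⟩ := key i h1 h3
    exact ⟨H192.even_ro _, v, g1, g2, g3⟩
  · obtain ⟨v, g1, g2, -, g4⟩ := key (i - 1) (by omega) (by omega)
    have e : i - 1 + 1 = i := by omega
    rw [e] at g4
    exact ⟨H192.even_ro _, v, g1, g2, g4⟩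

/-- Paths of fresh edges are paths of `Bad`. -/
theorem pst_bad (hδ : 0 < δ) (hA : A ⊆ edges S) {c : Bool} (hpar : Even (z.1 + z.2) ↔ c = true)
    (hc : Cfl p k S A j δ c z ρ R u w) {v₀ v₁ : ℤ × ℤ}
    (h : ReflTransGen (PSt p k S A δ ∅ (Cn p k S A j δ z ρ u) (j - 1)) v₀ v₁) :
    ReflTransGen (PStep {v | v ∈ Bad p k S A j δ c ρ R}) (H192.ro v₀) (H192.ro v₁) := by
  induction h with
  | refl => exact ReflTransGen.refl
  | @tail b d _ hbd ih =>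
    obtain ⟨⟨r, rfl⟩, h1, h2⟩ := hbd
    refine ih.tail ?_
    obtain ⟨h5, h6⟩ := H192.ro_dir b r
    refine ⟨h5, h6, ?_⟩
    have h3 : (min (H192.ro b).1 (H192.ro (b + dir r)).1,
        min (H192.ro b).2 (H192.ro (b + dir r)).2) = H192.sq s(b, b + dir r) := ed_sqr_dir b r
    rw [h3]
    exact fr_bad hδ hA hpar hc h1 h2

theorem step_cor {X : Set (ℤ × ℤ)} {s t : ℤ × ℤ} (hv : v ∈ X) (hs : Cor v s) (ht : Cor v t)
    (hpar : (s.1 + s.2) % 2 = (t.1 + t.2) % 2) : ReflTransGen (PStep X) s t := by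
  by_cases hst : s = t
  · rw [hst]
  · refine ReflTransGen.single ?_
    obtain ⟨s1, s2⟩ := s
    obtain ⟨t1, t2⟩ := t
    obtain ⟨v1, v2⟩ := v
    obtain ⟨h1, h2⟩ := hs
    obtain ⟨h3, h4⟩ := ht
    simp only [Prod.mk.injEq] at hst
    dsimp only at *
    refine ⟨?_, ?_, ?_⟩
    · dsimp only; omega
    · dsimp only; omega
    · have e : (min s1 t1, min s2 t2) = (v1, v2) := by
        rw [Prod.mk.injEq]
        omega
      show (min s1 t1, min s2 t2) ∈ X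
      rw [e]
      exact hv

/-- **The field `badj` of `Up`.** -/
theorem badj_up (hδ : 0 < δ) (hp : IsPolygon p) (hS : Encloses p S) (hk : 0 < k)
    (hkn : k + 1 < n) (hA : A ⊆ edges S) (hj : j - 1 ≤ len p k A) (hρ : ρ ≤ R)
    (hv : v ∈ Bad p k S A j δ true ρ R) (hs : (s.1 + s.2) % 2 = 0) (hvs : Cor v s) :
    ∃ w ∈ Wr (dk p k S A j) (om p k A), ReflTransGen
      (PStep {v | v ∈ Bad p k S A j δ true ρ R ∨ (v ∉ dk p k S A j ∧ om p k A v = true)}) w s := by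
  obtain ⟨hvd, z, u, w, hpar, hc, hm⟩ := mem_Bad.1 hv
  have hz : (z.1 + z.2) % 2 = 0 := Int.even_iff.1 (hpar.2 rfl)
  obtain ⟨hR, -⟩ := io_Cn hδ hA hj hvd hm
  obtain ⟨t, ht, hvt, htR⟩ := inner_cor hδ hR
  rw [hz] at ht
  have htC := corner_Cn hδ hA hj hvd hm hvt (even_Om hδ (edges_of_dk hvd) ht hvt) htR
  have et : H192.ro (H192.ro' t) = t := H192.ro_ro' (Int.even_iff.2 ht)
  obtain ⟨v₁, h1, h2⟩ := H634.s_cellP hδ hp hS hk hkn hA (j - 1) hj ∅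
    (fun _ h => h.elim) (fun _ _ h => h.elim) (Cn p k S A j δ z ρ u) conn_Cn
    (fun x hx => (Cn_sub hx).1.1) (hc.su' hδ) (avo_empty hδ _) (H192.ro' t)
    (by rw [← H161.zp_ro, et]; exact htC) (near_cfl hδ hρ hc)
  have h3 := pst_bad hδ hA hpar hc h2
  rw [et] at h3
  have h4 : ReflTransGen (PStep {v | v ∈ Bad p k S A j δ true ρ R}) s (H192.ro v₁) :=
    (step_cor (X := {v | v ∈ Bad p k S A j δ true ρ R}) hv hvs hvt (by rw [hs, ht])).trans h3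
  have h5 : ReflTransGen (PStep {v | v ∈ Bad p k S A j δ true ρ R ∨
      (v ∉ dk p k S A j ∧ om p k A v = true)}) (H192.ro v₁) s :=
    FKA.rtg_symm (H72.SD.rtg_mono (fun x hx => Or.inl hx) h4)
  rcases h1 with ⟨i, hi, rfl⟩ | ⟨i, hi1, hi2, rfl⟩
  · obtain ⟨i', g1, g2, g3⟩ := H161.left_wired (p := p) (S := S) (k := k) (by omega)
      (H192.cfg (A : Set (Sym2 (ℤ × ℤ)))) i
    rw [H161.ls_sp, H161.As_cfg hA] at g3
    refine ⟨_, wired_Wr hp hkn g1 g2, (H72.SD.rtg_mono (fun x hx => Or.inr ?_) g3).trans h5⟩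
    have hx1 : x ∈ Rd p k S A j := H192.rev_mono _ hi hx.1
    refine ⟨fun h => (Finset.mem_sdiff.1 h).2 hx1, ?_⟩
    rw [H72.SD.om_rd hx1]
    exact hx.2
  · exact ⟨_, wired_Wr hp hkn hi1 hi2, h5⟩

/-! ### The dual side -/

theorem cor_faces (a : ℤ × ℤ) (r : Fin 4) : Cor (H192.sq s(a, a + dir r)) (H192.rf (face a r)) ∧
    Cor (H192.sq s(a, a + dir r)) (H192.rf (face a (r - 1))) := by
  rw [H634.sq_edge]
  have key : ∀ r : Fin 4, Cor (face (H192.ro a) r) (H192.rf (face a r)) ∧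
      Cor (face (H192.ro a) r) (H192.rf (face a (r - 1))) := by
    refine forall4 ?_ ?_ ?_ ?_ <;>
      simp only [f4_0m, f4_1m, f4_2m, f4_3m, face0, face1, face2, face3, H192.ro, H192.rf, Cor,
        true_or, or_true, true_and, and_true] <;> omega
  exact key r

/-- The odd corners of the square of an edge are its two faces. -/
theorem odd_cor {a : ℤ × ℤ} {r : Fin 4} (hs : (s.1 + s.2) % 2 = 1)
    (h : Cor (H192.sq s(a, a + dir r)) s) : s = H192.rf (face a r) ∨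
      s = H192.rf (face a (r - 1)) := by
  obtain ⟨h1, h2⟩ := cor_faces a r
  have h3 : ¬ (H192.rf (face a r) = H192.rf (face a (r - 1))) := by
    have key : ∀ r : Fin 4, ¬ (H192.rf (face a r) = H192.rf (face a (r - 1))) := by
      refine forall4 ?_ ?_ ?_ ?_ <;> intro h <;> have h' := H192.rf_inj h <;>
        simp only [f4_0m, f4_1m, f4_2m, f4_3m, face0, face1, face2, face3, Prod.mk.injEq] at h' <;>
        omega
    exact key r
  rw [Prod.ext_iff] at h3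
  have p1 := H634.par_rf (face a r)
  have p2 := H634.par_rf (face a (r - 1))
  obtain ⟨a1, a2⟩ := h1
  obtain ⟨b1, b2⟩ := h2
  obtain ⟨c1, c2⟩ := h
  rw [Prod.ext_iff, Prod.ext_iff]
  omega

theorem odd_Om (hδ : 0 < δ) (h : H192.rf' s ∈ S) (hs : (s.1 + s.2) % 2 = 1) :
    zp δ s ∈ Om δ S ∧ cf δ (H192.rf' s) = zp δ s := by
  have e : H192.rf (H192.rf' s) = s := H192.rf_rf' (by rw [Int.not_even_iff]; exact hs)
  have h1 : cf δ (H192.rf' s) = zp δ s := by rw [← H634.cf_zp, e]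
  refine ⟨?_, h1⟩
  rw [← h1]
  unfold H634.cf
  rw [mem_Om hδ]
  refine ⟨_, h, ?_, ?_, ?_, ?_⟩ <;> simp [pt] <;> norm_num <;> linarith

/-- Paths of fresh dual edges are paths of `Bad`. -/
theorem dst_bad (hδ : 0 < δ) (hA : A ⊆ edges S) {c : Bool} (hpar : Even (z.1 + z.2) ↔ c = true)
    (hc : Cfl p k S A j δ c z ρ R u w) {f₀ f₁ : ℤ × ℤ}
    (h : ReflTransGen (fun f g => f ∈ S ∧ DSt p k S A δ ∅ (Cn p k S A j δ z ρ u) (j - 1) f g)
      f₀ f₁) :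
    ReflTransGen (PStep {v | v ∈ Bad p k S A j δ c ρ R}) (H192.rf f₀) (H192.rf f₁) ∧
      (f₁ = f₀ ∨ ∃ v ∈ Bad p k S A j δ c ρ R, Cor v (H192.rf f₁)) := by
  induction h with
  | refl => exact ⟨ReflTransGen.refl, Or.inl rfl⟩
  | @tail b d _ hbd ih =>
    obtain ⟨-, a, r, h0, h1, h2⟩ := hbd
    obtain ⟨g1, g2⟩ := cor_faces a r
    have h3 := fr_bad hδ hA hpar hc h1 h2
    have h4 : Cor (H192.sq s(a, a + dir r)) (H192.rf b) ∧
        Cor (H192.sq s(a, a + dir r)) (H192.rf d) := by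
      rcases h0 with ⟨rfl, rfl⟩ | ⟨rfl, rfl⟩
      · exact ⟨g1, g2⟩
      · exact ⟨g2, g1⟩
    exact ⟨ih.1.trans (step_cor (X := {v | v ∈ Bad p k S A j δ c ρ R}) h3 h4.1 h4.2
      (by rw [H634.par_rf, H634.par_rf])), Or.inr ⟨_, h3, h4.2⟩⟩

/-- **The field `badj` of `Lo`.** -/
theorem badj_lo (hδ : 0 < δ) (hp : IsPolygon p) (hS : Encloses p S) (hk : 0 < k)
    (hkn : k + 1 < n) (hA : A ⊆ edges S) (hj : j - 1 ≤ len p k A) (hρ : ρ ≤ R)
    {W : Set (ℤ × ℤ)}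
    (hT : ∀ v ∈ Bad p k S A j δ false ρ R, ∀ s, (s.1 + s.2) % 2 = 1 → Cor v s → H192.rf' s ∉ S →
      s ∈ W)
    (hv : v ∈ Bad p k S A j δ false ρ R) (hs : (s.1 + s.2) % 2 = 1) (hvs : Cor v s) :
    ∃ t ∈ WD p k S A j W, ReflTransGen
      (PStep {v | v ∈ Bad p k S A j δ false ρ R ∨ v ∈ Kc p k S A j}) s t := by
  obtain ⟨hvd, z, u, w, hpar, hc, hm⟩ := mem_Bad.1 hv
  have hz : (z.1 + z.2) % 2 = 1 := by
    rw [← Int.not_even_iff, hpar]
    simp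
  obtain ⟨hR, -⟩ := io_Cn hδ hA hj hvd hm
  obtain ⟨t, ht, hvt, htR⟩ := inner_cor hδ hR
  rw [hz] at ht
  have hst : ReflTransGen (PStep {v | v ∈ Bad p k S A j δ false ρ R ∨ v ∈ Kc p k S A j}) s t :=
    step_cor (X := {v | v ∈ Bad p k S A j δ false ρ R ∨ v ∈ Kc p k S A j}) (Or.inl hv) hvs hvt
      (by rw [hs, ht])
  by_cases htS : H192.rf' t ∈ S
  swap
  · exact ⟨t, Or.inl (hT v hv t ht hvt htS), hst⟩
  obtain ⟨htO, hcf⟩ := odd_Om hδ htS ht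
  have et : H192.rf (H192.rf' t) = t := H192.rf_rf' (by rw [Int.not_even_iff]; exact ht)
  have htC := corner_Cn hδ hA hj hvd hm hvt htO htR
  obtain ⟨f₁, h1, h2⟩ := H161.Cell.s_cellD hδ hp hS hk hkn hA (j - 1) hj ∅
    (fun _ h => h.elim) (fun _ _ h => h.elim) (Cn p k S A j δ z ρ u) conn_Cn
    (fun x hx => (Cn_sub hx).1.1) (hc.su' hδ) (avo_empty hδ _) (H192.rf' t) htS
    (by rw [hcf]; exact htC) (near_cfl hδ hρ hc)
  obtain ⟨h3, h4⟩ := dst_bad hδ hA hpar hc h2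
  rw [et] at h3
  have h5 : ReflTransGen (PStep {v | v ∈ Bad p k S A j δ false ρ R ∨ v ∈ Kc p k S A j}) s
      (H192.rf f₁) := hst.trans (H72.SD.rtg_mono (fun x hx => Or.inl hx) h3)
  by_cases hf₁ : f₁ ∈ S
  · rcases h1 with ⟨i, hi, rfl⟩ | h1
    swap
    · exact absurd hf₁ h1
    obtain ⟨j', -, g2, g3⟩ := H161.right_free (k := k) hp hS
      (H192.cfg (A : Set (Sym2 (ℤ × ℤ)))) i
    rw [H161.As_cfg hA] at g2
    rw [H161.rs_sp, H161.rs_sp, H161.As_cfg hA] at g3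
    rcases ReflTransGen.cases_tail g3 with g4 | ⟨b, -, g4⟩
    · exact absurd (H192.rf_inj g4 ▸ hf₁) g2
    · refine ⟨_, Or.inr ?_, h5⟩
      have hx1 := (FKA.cor_of_step g4).2
      have hx2 := g4.2.2
      have hx3 : (min b.1 (H192.rf (fc (run p k A i))).1,
          min b.2 (H192.rf (fc (run p k A i))).2) ∈ Rd p k S A j := H192.rev_mono _ hi hx2.1
      refine ⟨H634.par_rf _, _, hx3, ?_, hx1⟩
      rw [H72.SD.om_rd hx3]
      exact hx2.2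
  · rcases h4 with rfl | ⟨v', hv', hc'⟩
    · exact absurd htS hf₁
    · refine ⟨_, Or.inl (hT v' hv' _ (H634.par_rf _) hc' ?_), h5⟩
      rw [H192.rf'_rf]
      exact hf₁

end

end Vale.Agent.P167.H713.Q
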