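import Vale.Agent.P167.H713.Q.SeamD
import Vale.Agent.P167.H713.Q.BadJ2

/-!
# P167, general `q`, [SAND-GEO]: the squares which are chained to the base square

`inn S s`: the site is a vertex or a face of the domain (then it is in `Om`). `EE T S x₀`: the squares
of `T` which are joined to `x₀` by common sites of this kind. `XX`: the union of the open squares and of
the sites; it is seen from the base square (`Seam.seen`).
-/

set_option autoImplicit false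

namespace Vale.Agent.P167.H713.Q

open Set Filter Topology Metric Relation
open Vale.Agent.P167.E6 Vale.Agent.P167.E2
open Vale.Agent.P167.H634 (RO LO SqD Sq1)
open Vale.Agent.P167.H72.SD (dk om Wr Kc LB RB ComS)
open Vale.Agent.P167.H161 (zp Rd mem_Rd)
open Vale.Agent.P167.FKA (Cor)

/-- The site is a vertex or an inner face. -/
def inn (S : Finset (ℤ × ℤ)) (s : ℤ × ℤ) : Prop := (s.1 + s.2) % 2 = 0 ∨ H192.rf' s ∈ S

/-- Steps between squares of `T` with a common site of `Om`. -/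
def Stp (T S : Finset (ℤ × ℤ)) (x y : ℤ × ℤ) : Prop :=
  x ∈ T ∧ y ∈ T ∧ ∃ s, inn S s ∧ Cor x s ∧ Cor y s

open Classical in
/-- The chained squares. -/
noncomputable def EE (T S : Finset (ℤ × ℤ)) (x₀ : ℤ × ℤ) : Finset (ℤ × ℤ) :=
  T.filter fun x => ReflTransGen (Stp T S) x₀ x

theorem mem_EE {T S : Finset (ℤ × ℤ)} {x₀ x : ℤ × ℤ} :
    x ∈ EE T S x₀ ↔ x ∈ T ∧ ReflTransGen (Stp T S) x₀ x := by
  classical
  unfold EE
  rw [Finset.mem_filter]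

theorem EE_step {T S : Finset (ℤ × ℤ)} {x₀ x y s : ℤ × ℤ} (hx : x ∈ EE T S x₀) (hy : y ∈ T)
    (hs : inn S s) (hxs : Cor x s) (hys : Cor y s) : y ∈ EE T S x₀ := by
  rw [mem_EE] at hx ⊢
  exact ⟨hy, hx.2.tail ⟨hx.1, hy, s, hs, hxs, hys⟩⟩

theorem Stp_symm {T S : Finset (ℤ × ℤ)} {x y : ℤ × ℤ} (h : Stp T S x y) : Stp T S y x := by
  obtain ⟨h1, h2, s, h3, h4, h5⟩ := h
  exact ⟨h2, h1, s, h3, h5, h4⟩

theorem rtg_Stp_symm {T S : Finset (ℤ × ℤ)} {x y : ℤ × ℤ} (h : ReflTransGen (Stp T S) x y) :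
    ReflTransGen (Stp T S) y x := by
  induction h with
  | refl => exact ReflTransGen.refl
  | tail _ h1 ih => exact ReflTransGen.head (Stp_symm h1) ih

theorem parity_cases (s : ℤ × ℤ) : (s.1 + s.2) % 2 = 0 ∨ (s.1 + s.2) % 2 = 1 := by omega

/-- Two points of a closed square. -/
theorem dist_SqD {δ : ℝ} (hδ : 0 < δ) {v : ℤ × ℤ} {a b : ℂ} (ha : a ∈ SqD δ v)
    (hb : b ∈ SqD δ v) : dist a b ≤ δ := by
  obtain ⟨⟨a1, a2⟩, a3, a4⟩ := (mem_SqD hδ).1 ha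
  obtain ⟨⟨b1, b2⟩, b3, b4⟩ := (mem_SqD hδ).1 hb
  rw [dist_eq_norm]
  refine abs_le_of_sq_le_sq' ?_ hδ.le |>.2
  rw [Complex.sq_norm, Complex.normSq_apply, Complex.sub_re, Complex.sub_im]
  have h1 : |(a.re - b.re) - (a.im - b.im)| ≤ δ := by
    rw [abs_le]
    constructor <;> nlinarith
  have h2 : |(a.re - b.re) + (a.im - b.im)| ≤ δ := by
    rw [abs_le]
    constructor <;> nlinarith
  have h3 := sq_le_sq' (abs_le.1 h1).1 (abs_le.1 h1).2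
  have h4 := sq_le_sq' (abs_le.1 h2).1 (abs_le.1 h2).2
  nlinarith

section

variable {n : ℕ} {p : ZMod n → ℤ × ℤ} {k : ℕ} {S : Finset (ℤ × ℤ)} {A : Finset (Sym2 (ℤ × ℤ))}
  {j : ℕ} {δ : ℝ} {v s z x u : ℤ × ℤ}

/-- The corners which are vertices or inner faces are in `Om`. -/
theorem inn_Om (hδ : 0 < δ) (hv : H192.ed v ∈ edges S) (hs : inn S s) (h : Cor v s) :
    zp δ s ∈ Om δ S := by
  rcases parity_cases s with h0 | h0
  · exact even_Om hδ hv h0 h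
  · rcases hs with h1 | h1
    · omega
    · exact (odd_Om hδ h1 h0).1

/-- The open square with its sites in `Om`. -/
def star (S : Finset (ℤ × ℤ)) (δ : ℝ) (x : ℤ × ℤ) : Set ℂ :=
  (Io δ x ∩ Om δ S) ∪ {w | ∃ s, inn S s ∧ Cor x s ∧ w = zp δ s}

theorem star_SqD (hδ : 0 < δ) : star S δ x ⊆ SqD δ x := by
  rintro w (h | ⟨s, -, h, rfl⟩)
  · exact Io_sub hδ x h.1
  · exact cor_SqD hδ h

theorem conn_star (hδ : 0 < δ) (hx : H192.ed x ∈ edges S) : IsPreconnected (star S δ x) := by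
  refine (conv_io hδ hx).isPreconnected.subset_closure subset_union_left ?_
  refine union_subset subset_closure ?_
  rintro w ⟨s, h1, h2, rfl⟩
  exact clos hδ hx (cor_SqD hδ h2) (inn_Om hδ hx h1 h2)

theorem star_Dn (hδ : 0 < δ) (hA : A ⊆ edges S) (hj : j - 1 ≤ len p k A)
    (hx : x ∈ dk p k S A j) : star S δ x ⊆ Dn p k S A j δ := by
  rintro w (h | ⟨s, h1, h2, rfl⟩)
  · exact io_sub hδ hA hj hx h
  · exact site_Dn hδ hj (inn_Om hδ (edges_of_dk hx) h1 h2)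

/-- Every square has an even corner. -/
theorem exists_even (x : ℤ × ℤ) : ∃ s, (s.1 + s.2) % 2 = 0 ∧ Cor x s := by
  rcases parity_cases x with h | h
  · exact ⟨x, h, Or.inl rfl, Or.inl rfl⟩
  · exact ⟨(x.1 + 1, x.2), by dsimp only; omega, Or.inr rfl, Or.inl rfl⟩

theorem io_nonempty (hδ : 0 < δ) (hx : H192.ed x ∈ edges S) : (Io δ x ∩ Om δ S).Nonempty := by
  obtain ⟨s, h1, h2⟩ := exists_even x
  have h3 := clos hδ hx (cor_SqD hδ h2) (even_Om hδ hx h1 h2)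
  exact closure_nonempty_iff.1 ⟨_, h3⟩

/-- The union of the stars of the chained squares. -/
def XX (T S : Finset (ℤ × ℤ)) (δ : ℝ) (x₀ : ℤ × ℤ) : Set ℂ := ⋃ x ∈ {x | x ∈ EE T S x₀}, star S δ x

theorem mem_XX {T : Finset (ℤ × ℤ)} {x₀ : ℤ × ℤ} (hx : x ∈ EE T S x₀) {w : ℂ}
    (h : w ∈ star S δ x) : w ∈ XX T S δ x₀ := mem_biUnion (show x ∈ {x | x ∈ EE T S x₀} from hx) h

theorem conn_XX (hδ : 0 < δ) {T : Finset (ℤ × ℤ)} {x₀ : ℤ × ℤ} (hT : ∀ x ∈ T, H192.ed x ∈ edges S) :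
    IsPreconnected (XX T S δ x₀) := by
  refine IsPreconnected.biUnion_of_reflTransGen (fun x hx => conn_star hδ (hT x (mem_EE.1 hx).1)) ?_
  intro x hx y hy
  have hx' := mem_EE.1 hx
  have hy' := mem_EE.1 hy
  have h1 : ReflTransGen (Stp T S) x y := (rtg_Stp_symm hx'.2).trans hy'.2
  clear hy hy'
  induction h1 with
  | refl => exact ReflTransGen.refl
  | @tail b c hb hbc ih =>
    refine ih.tail ⟨?_, ?_⟩
    · obtain ⟨-, -, s, h3, h4, h5⟩ := hbc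
      exact ⟨zp δ s, Or.inr ⟨s, h3, h4, rfl⟩, Or.inr ⟨s, h3, h5, rfl⟩⟩
    · exact mem_EE.2 ⟨hbc.1, hx'.2.trans hb⟩

variable {c : Bool} {Bd P : Finset (ℤ × ℤ)} {ζ : Cfg} {W WP arcP : Set (ℤ × ℤ)} {x₀ : ℤ × ℤ}
  {Pm O Fl : Set ℂ}

theorem p_closure (hδ : 0 < δ) (p1 : ∀ x ∈ P, Io δ x ⊆ Pm) (hx : x ∈ P) : SqD δ x ⊆ closure Pm :=
  (clos_Io hδ x).trans (closure_mono (p1 x hx))

/-- The squares. -/
noncomputable def TT (p : ZMod n → ℤ × ℤ) (k : ℕ) (S : Finset (ℤ × ℤ)) (A : Finset (Sym2 (ℤ × ℤ)))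
    (j : ℕ) (Bd P : Finset (ℤ × ℤ)) : Finset (ℤ × ℤ) := (dk p k S A j \ Bd) ∩ P

theorem mem_TT : x ∈ TT p k S A j Bd P ↔ (x ∈ dk p k S A j ∧ x ∉ Bd) ∧ x ∈ P := by
  unfold TT
  rw [Finset.mem_inter, Finset.mem_sdiff]

/-- **The union of the stars is seen from the base square.** -/
theorem Seam.seen (h : Seam c p k S A j δ Bd P ζ W WP arcP x₀ Pm O Fl) (hδ : 0 < δ)
    (hA : A ⊆ edges S) (hj : j - 1 ≤ len p k A) :
    Seen (Dn p k S A j δ) O Pm δ x₀ (XX (TT p k S A j Bd P) S δ x₀) where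
  conn := conn_XX hδ fun x hx => edges_of_dk (mem_TT.1 hx).1.1
  sub := by
    intro w hw
    obtain ⟨x, hx, hw⟩ := mem_iUnion₂.1 hw
    exact star_Dn hδ hA hj (mem_TT.1 (mem_EE.1 hx).1).1.1 hw
  off := by
    rw [disjoint_left]
    intro w hw
    obtain ⟨x, hx, hw⟩ := mem_iUnion₂.1 hw
    have h1 := mem_TT.1 (mem_EE.1 hx).1
    exact disjoint_left.1 (h.ob x h1.1.1 h1.1.2) (star_SqD hδ hw)
  cl := by
    intro w hw
    obtain ⟨x, hx, hw⟩ := mem_iUnion₂.1 hw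
    exact p_closure hδ h.p1 (mem_TT.1 (mem_EE.1 hx).1).2 (star_SqD hδ hw)
  base := by
    obtain ⟨w, hw⟩ := io_nonempty hδ (edges_of_dk h.x₀d)
    refine ⟨w, mem_XX ?_ (Or.inl hw), hw.1⟩
    exact mem_EE.2 ⟨mem_TT.2 ⟨⟨h.x₀d, h.x₀b⟩, h.x₀P⟩, ReflTransGen.refl⟩

theorem mem_E' : x ∈ EE (TT p k S A j Bd P) S x₀ →
    x ∈ dk p k S A j ∧ x ∉ Bd ∧ x ∈ P := fun h => by
  have h1 := mem_TT.1 (mem_EE.1 h).1
  exact ⟨h1.1.1, h1.1.2, h1.2⟩

/-- **A square near the side has no site in common with the chained squares, off the flat part.** -/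
theorem Seam.near_site (h : Seam c p k S A j δ Bd P ζ W WP arcP x₀ Pm O Fl) (hδ : 0 < δ)
    (hA : A ⊆ edges S) (hj : j - 1 ≤ len p k A) (hx : x ∈ EE (TT p k S A j Bd P) S x₀)
    (hu : u ∈ dk p k S A j) (hs : inn S s) (hxs : Cor x s) (hus : Cor u s)
    (hne : (Io δ u ∩ Om δ S ∩ Sd p k S A j δ c).Nonempty) : zp δ s ∈ Fl := by
  refine h.s3 _ (h.seen hδ hA hj) _ (mem_XX hx (Or.inr ⟨s, hs, hxs, rfl⟩)) ?_
  refine ⟨star S δ u, conn_star hδ (edges_of_dk hu), star_Dn hδ hA hj hu, ?_,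
    Or.inr ⟨s, hs, hus, rfl⟩, ?_⟩
  · intro w hw
    rw [mem_ball]
    have := dist_SqD hδ (star_SqD hδ hw) (cor_SqD hδ hus)
    linarith
  · obtain ⟨w, hw1, hw2⟩ := hne
    exact ⟨w, Or.inl hw1, hw2⟩

/-- **A chained square near the side is in the flat part.** -/
theorem Seam.near_self (h : Seam c p k S A j δ Bd P ζ W WP arcP x₀ Pm O Fl) (hδ : 0 < δ)
    (hA : A ⊆ edges S) (hj : j - 1 ≤ len p k A) (hx : x ∈ EE (TT p k S A j Bd P) S x₀)
    (hne : (Io δ x ∩ Om δ S ∩ Sd p k S A j δ c).Nonempty) : ∃ y ∈ Fl, y ∈ SqD δ x := by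
  obtain ⟨w, hw1, hw2⟩ := hne
  have hxd := (mem_E' hx).1
  refine ⟨w, h.s3 _ (h.seen hδ hA hj) _ (mem_XX hx (Or.inl hw1)) ?_, Io_sub hδ x hw1.1⟩
  refine ⟨star S δ x, conn_star hδ (edges_of_dk hxd), star_Dn hδ hA hj hxd, ?_,
    Or.inl hw1, w, Or.inl hw1, hw2⟩
  intro y hy
  rw [mem_ball]
  have := dist_SqD hδ (star_SqD hδ hy) (Io_sub hδ x hw1.1)
  linarith

/-- A common site of a chained square and of an unread square outside of the shape. -/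
theorem Seam.arc_site (h : Seam c p k S A j δ Bd P ζ W WP arcP x₀ Pm O Fl) (hδ : 0 < δ)
    (hA : A ⊆ edges S) (hj : j - 1 ≤ len p k A) {y : ℤ × ℤ}
    (hx : x ∈ EE (TT p k S A j Bd P) S x₀) (hyd : y ∈ dk p k S A j \ Bd) (hy : y ∉ P)
    (hs : inn S s) (hxs : Cor x s) (hys : Cor y s) : Arc c P ζ WP arcP s := by
  rw [Finset.mem_sdiff] at hyd
  refine h.s4 _ (h.seen hδ hA hj) s (mem_XX hx (Or.inr ⟨s, hs, hxs, rfl⟩)) ?_
    ⟨y, hyd.1, hyd.2, hy, hys⟩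
  rw [h.popen.frontier_eq]
  refine ⟨p_closure hδ h.p1 (mem_E' hx).2.2 (cor_SqD hδ hxs), fun hP => ?_⟩
  obtain ⟨w, hw1, hw2⟩ := mem_closure_iff_nhds.1 (clos_Io hδ y (cor_SqD hδ hys)) _
    (h.popen.mem_nhds hP)
  exact disjoint_left.1 (h.p2 y hy) hw2 hw1

/-- The sites near the flat part. -/
theorem Seam.com' (h : Seam c p k S A j δ Bd P ζ W WP arcP x₀ Pm O Fl) (hδ : 0 < δ)
    (hx : x ∈ dk p k S A j) (hxP : x ∈ P) (hxs : Cor x s)
    (hs : (s.1 + s.2) % 2 = (if c then 0 else 1)) {w : ℂ} (hw : w ∈ Fl) (hws : w ∈ SqD δ x) :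
    ComS p k S A j Bd P s := by
  refine h.com w hw s ?_ hs ⟨x, (Finset.mem_sdiff.1 hx).1, hxs⟩ ⟨x, hxP, hxs⟩
  have := dist_SqD hδ hws (cor_SqD hδ hxs)
  linarith

end

end Vale.Agent.P167.H713.Q
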