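import Vale.Agent.P167.H72.SD.Lat
import Vale.Agent.P167.H634.CellDefs
import Vale.Agent.P167.H634.AvoQ

/-!
# P167, general `q`, [SAND-GEO]: conflict pairs and the set `Bad` (definitions)

One history `A`, `j` (path `pl '' Icc 0 j`, `j - 1` squares were read), mesh `δ`.
* `oR δ z R`: the open region of the box `Bq z R` (union of the closed squares of the box, without its
  boundary);
* `Dn`: the continuum domain after `j` steps (`= ψ '' loewnerDomain W t`);
* `Cn z R u`: the component of `u` in `Dn ∩ oR z R`;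
* `Sd c`: the side of the colour opposite to `c` (`c = true`: the right side);
* `Cfl c z ρ R u w`: conflict pair of the colour `c` (`c = true`: both see wired walls only): `u`, `w` are
  in the box of radius `ρ / 2`, not joined in the box of radius `R`, the components in the box of radius
  `ρ + 16` do not meet the side of the other colour, `u` is not joined to the tip in the box of radius `R`
  (`w` may be);
* `Bad c ρ R`: the unread squares which meet the component in the box of radius `ρ` of the member `u` of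
  a conflict pair; the centre `z` is even for `c = true` and odd for `c = false`.
-/

set_option autoImplicit false

namespace Vale.Agent.P167.H713.Q

open Set
open Vale.Agent.P167.E6 Vale.Agent.P167.E2
open Vale.Agent.P167.H634 (RO LO SqD)
open Vale.Agent.P167.H72.SD (dk)

/-- The open region of the box `Bq z R`, mesh `δ`. -/
def oR (δ : ℝ) (z : ℤ × ℤ) (R : ℝ) : Set ℂ :=
  {w | |w.re - w.im - δ * z.1| < δ * R ∧ |w.re + w.im - δ * z.2| < δ * R}

section

variable {n : ℕ} (p : ZMod n → ℤ × ℤ) (k : ℕ) (S : Finset (ℤ × ℤ)) (A : Finset (Sym2 (ℤ × ℤ)))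
  (j : ℕ) (δ : ℝ)

/-- The domain after `j` steps. -/
def Dn : Set ℂ := Om δ S \ pl p k δ A '' Icc 0 (j : ℝ)

/-- The component of `u` in the box. -/
def Cn (z : ℤ × ℤ) (R : ℝ) (u : ℂ) : Set ℂ := connectedComponentIn (Dn p k S A j δ ∩ oR δ z R) u

/-- The side of the colour opposite to `c`. -/
def Sd (c : Bool) : Set ℂ := if c then RO p k S A δ (j - 1) else LO p k A δ (j - 1)

/-- The tip. -/
noncomputable def tip : ℂ := pl p k δ A (j : ℝ)

/-- Conflict pair of the colour `c`. -/
structure Cfl (c : Bool) (z : ℤ × ℤ) (ρ R : ℕ) (u w : ℂ) : Prop where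
  u_mem : u ∈ Dn p k S A j δ
  w_mem : w ∈ Dn p k S A j δ
  u_reg : u ∈ oR δ z (ρ / 2)
  w_reg : w ∈ oR δ z (ρ / 2)
  nj : w ∉ Cn p k S A j δ z R u
  su : Disjoint (Cn p k S A j δ z (ρ + 16) u) (Sd p k S A j δ c)
  sw : Disjoint (Cn p k S A j δ z (ρ + 16) w) (Sd p k S A j δ c)
  nt : tip p k A j δ ∉ closure (Cn p k S A j δ z R u)

open Classical in
/-- The squares which are frozen in the colour `c`. -/
noncomputable def Bad (c : Bool) (ρ R : ℕ) : Finset (ℤ × ℤ) :=
  (dk p k S A j).filter fun x => ∃ (z : ℤ × ℤ) (u w : ℂ), (Even (z.1 + z.2) ↔ c = true) ∧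
    Cfl p k S A j δ c z ρ R u w ∧ (SqD δ x ∩ Cn p k S A j δ z ρ u).Nonempty

end

end Vale.Agent.P167.H713.Q
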