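import Vale.Agent.P167.H653.St.Fin
import Vale.Agent.P167.H713.Q.BadJ2
import Vale.Agent.P167.H446.G.Flat2
import Vale.Agent.P167.H446.G.Lit
import Vale.Agent.P167.H918.FlsP

/-!
# P167, general `q`, [SAND-GEO]: the box at `d`

The half box of one unit at the site `d` is in the explored domain, off `Bad` and in the shape, for all
histories.
-/

set_option autoImplicit false

namespace Vale.Agent.P167.H713.Q

open Filter Topology Set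
open Vale.Agent.P167.E6 (edges Medial pt dir)
open Vale.Agent.P167.E2 (len)
open Vale.Agent.P167.H634 (SqD)
open Vale.Agent.P167.H192 (ro)
open Vale.Agent.P167.H411 (exn Set6)
open Vale.Agent.P167.H756 (Drv)
open Vale.Agent.P167.H446.G (psr Bef Cst Fam rS rR vd bad Hst rt)
open Vale.Agent.P167.H397.K (frm kbox cst_all)
open Vale.Agent.P167.SG (Bf Flt)
open Vale.Agent.P164 (loewnerDomain)
open Vale.Agent.P167.BR (hbox)
open Vale.Agent.P167.QT (Sh4 dom)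
open Vale.Agent.P167.H72.SD (dk)

section

variable {n : ℕ} {p : ZMod n → ℤ × ℤ} {k : ℕ} {S : Finset (ℤ × ℤ)} {A : Hst} {j : ℕ} {δ : ℝ}

/-- A square in the flat box is not frozen. -/
theorem not_bad {ψ : ℂ → ℂ} {W : ℝ → ℝ} {t T B xb rf cg X1 X3 δ₀ : ℝ} {Gt : Set ℂ} {x₁ : ℂ}
    {ρ R : ℕ} {c : Bool} (H : Flt ψ xb rf cg X1 X3 δ₀ Gt x₁) (Hd : Drv T B W t) (h1 : 4 * B ≤ X1)
    (h2 : 16 * T ≤ X1 ^ 2) (hδ : 0 < δ) (hρ : 32 ≤ ρ) (hR : 7 * ρ ≤ R) {v₁ : ℤ × ℤ}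
    (hD : ψ '' loewnerDomain W t = frm δ v₁ '' Dn p k S A j δ) (hδ₀ : δ₀ ≤ 3 * δ)
    (hrf : 16 * (ρ * δ) ≤ rf) {v : ℤ × ℤ} (hv : ∀ z ∈ SqD δ v, frm δ v₁ z ∈ Bf xb (rf / 2)) :
    v ∉ Bad p k S A j δ c ρ R := by
  intro hb
  obtain ⟨-, z, u, w, -, hC, q, hq1, hq2⟩ := mem_Bad.1 hb
  exact Set.disjoint_left.1 (kbox H Hd h1 h2 hδ hρ hR hD hδ₀ hrf hC) ⟨q, hq2, rfl⟩ (hv q hq1)

end

/-- The frame of a square. -/
theorem frm_sq {δ : ℝ} (hδ : 0 < δ) {v v₁ : ℤ × ℤ} {z : ℂ} (hz : z ∈ SqD δ v) :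
    (H446.G.dl δ * ((v.1 : ℝ) - v₁.1) ≤ (frm δ v₁ z).re ∧
      (frm δ v₁ z).re ≤ H446.G.dl δ * ((v.1 : ℝ) - v₁.1 + 1)) ∧
    H446.G.dl δ * ((v.2 : ℝ) - v₁.2) ≤ (frm δ v₁ z).im ∧
      (frm δ v₁ z).im ≤ H446.G.dl δ * ((v.2 : ℝ) - v₁.2 + 1) := by
  obtain ⟨⟨a1, a2⟩, a3, a4⟩ := (mem_SqD hδ).1 hz
  have h2 : (0 : ℝ) < √2 := by positivity
  have e1 : (frm δ v₁ z).re = (z.re - z.im) / √2 - H446.G.dl δ * v₁.1 := by
    unfold frm
    rw [Complex.add_re, H446.G.rt_re]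
    simp [pt]
    ring
  have e2 : (frm δ v₁ z).im = (z.re + z.im) / √2 - H446.G.dl δ * v₁.2 := by
    unfold frm
    rw [Complex.add_im, H446.G.rt_im]
    simp [pt]
    ring
  have e3 : ∀ x : ℝ, δ * x / √2 = H446.G.dl δ * x := by
    intro x
    unfold H446.G.dl
    ring
  have b1 := div_le_div_of_nonneg_right a1 h2.le
  have b2 := div_le_div_of_nonneg_right a2 h2.le
  have b3 := div_le_div_of_nonneg_right a3 h2.le
  have b4 := div_le_div_of_nonneg_right a4 h2.le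
  rw [e3] at b1 b2 b3 b4
  rw [e1, e2]
  refine ⟨⟨by linarith, by linarith⟩, by linarith, by linarith⟩

/-- The frame of the squares of the box. -/
theorem frm_box {δ : ℝ} (hδ : 0 < δ) {v v₁ : ℤ × ℤ} {D N : ℕ} {r : ℝ}
    (v1 : v₁.1 - (D : ℤ) - N ≤ v.1) (v2 : v.1 < v₁.1 - D + N) (v3 : v₁.2 ≤ v.2)
    (v4 : v.2 < v₁.2 + N) (h : H446.G.dl δ * (D : ℝ) + H446.G.dl δ * (N : ℝ) < r) :
    ∀ z ∈ SqD δ v, frm δ v₁ z ∈ Bf 0 r := by
  intro z hz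
  have hdl := H446.G.dl_pos hδ
  obtain ⟨⟨z1, z2⟩, z3, z4⟩ := frm_sq hδ (v₁ := v₁) hz
  have w1 : (v₁.1 : ℝ) - D - N ≤ v.1 := by exact_mod_cast v1
  have w2 : (v.1 : ℝ) + 1 ≤ v₁.1 - D + N := by exact_mod_cast v2
  have w3 : (v₁.2 : ℝ) ≤ v.2 := by exact_mod_cast v3
  have w4 : (v.2 : ℝ) + 1 ≤ v₁.2 + N := by exact_mod_cast v4
  have q1 : H446.G.dl δ * (-(D : ℝ) - N) ≤ H446.G.dl δ * ((v.1 : ℝ) - v₁.1) :=
    mul_le_mul_of_nonneg_left (by linarith) hdl.le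
  have q2 : H446.G.dl δ * ((v.1 : ℝ) - v₁.1 + 1) ≤ H446.G.dl δ * (-(D : ℝ) + N) :=
    mul_le_mul_of_nonneg_left (by linarith) hdl.le
  have q3 : (0 : ℝ) ≤ H446.G.dl δ * ((v.2 : ℝ) - v₁.2) := mul_nonneg hdl.le (by linarith)
  have q4 : H446.G.dl δ * ((v.2 : ℝ) - v₁.2 + 1) ≤ H446.G.dl δ * N :=
    mul_le_mul_of_nonneg_left (by linarith) hdl.le
  have q5 : (0 : ℝ) ≤ H446.G.dl δ * (D : ℝ) := by positivity
  have q6 : (0 : ℝ) ≤ H446.G.dl δ * (N : ℝ) := by positivity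
  rw [mul_sub, mul_neg] at q1
  rw [mul_add (H446.G.dl δ) (-(D : ℝ)) N, mul_neg] at q2
  refine ⟨?_, ?_⟩
  · rw [sub_zero, abs_lt]
    constructor <;> linarith
  · rw [abs_lt]
    constructor <;> linarith

/-- The number of squares between the target and `d`. -/
theorem dist_D {L s δ : ℝ} (hδ : 0 < δ) (hs : 0 < s) (hL : 0 ≤ L) :
    H446.G.dl δ * ((H446.G.Ku L s * H446.G.Nn s δ + H446.G.Nn s δ / 2 : ℕ) : ℝ) ≤ L + s := by
  have hdl := H446.G.dl_pos hδ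
  have hN1 : H446.G.dl δ * (H446.G.Nn s δ : ℝ) ≤ s := H446.G.Nn_le hs hδ
  have hD1 : ((H446.G.Ku L s * H446.G.Nn s δ + H446.G.Nn s δ / 2 : ℕ) : ℝ) ≤
      (H446.G.Ku L s + 1 : ℝ) * H446.G.Nn s δ := by
    have : H446.G.Ku L s * H446.G.Nn s δ + H446.G.Nn s δ / 2 ≤
        (H446.G.Ku L s + 1) * H446.G.Nn s δ := by
      rw [add_mul, one_mul]
      omega
    exact_mod_cast this
  have h1 := H446.G.Ku_le (L := L) (s := s) hL hs
  have h2 : (0 : ℝ) ≤ (H446.G.Ku L s + 1 : ℝ) := by positivity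
  calc _ ≤ H446.G.dl δ * ((H446.G.Ku L s + 1 : ℝ) * H446.G.Nn s δ) := by gcongr
    _ = (H446.G.Ku L s + 1 : ℝ) * (H446.G.dl δ * H446.G.Nn s δ) := by ring
    _ ≤ (H446.G.Ku L s + 1 : ℝ) * s := by gcongr
    _ ≤ L + s := by linarith

theorem del_dl {δ : ℝ} (hδ : 0 < δ) : δ ≤ 2 * H446.G.dl δ := by
  have e : δ = √2 * H446.G.dl δ := by
    unfold H446.G.dl
    field_simp
  have h2 : √2 ≤ 2 := by
    rw [Real.sqrt_le_left (by norm_num)]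
    norm_num
  calc δ = √2 * H446.G.dl δ := e
    _ ≤ 2 * H446.G.dl δ := mul_le_mul_of_nonneg_right h2 (H446.G.dl_pos hδ).le

/-- The half box is in the shape. -/
theorem hbox_dom {P : Sh4} {ρ N : ℕ} {v₀ : ℤ × ℤ} (h : P.Ok ρ) (hρ : 2 ≤ ρ) (hN : 0 < N) :
    hbox v₀ N ⊆ dom N v₀ P := by
  intro v hv
  have h1 := H446.G.fl_shape (v₀ := v₀) h hN (R := N) (by nlinarith)
  rw [BR.mem_hbox] at hv
  exact (h1.dom v (H166.mem_Bq.2 (by omega))).2 hv.2.2.1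

section

variable {Φ : (ℝ × ℝ) ≃ₜ (ℝ × ℝ)} {ψ : ℂ → ℂ} {δ : ℕ → ℝ} {N k : ℕ → ℕ}
  {p : ∀ n, ZMod (N n) → ℤ × ℤ} {S : ℕ → Finset (ℤ × ℤ)} {ψn : ℕ → ℂ → ℂ}

/-- **The box at `d`, all histories.** -/
theorem box_all (H : Set6 Φ ψ δ N k p S ψn) (hK : QE.Stair 3 Φ δ N k p S) {T R : ℝ}
    (hT : 0 ≤ T) (hR : 0 ≤ R) : ∃ ρ₀ : ℝ, 0 < ρ₀ ∧ ∀ C : Cst, C.T = T → C.R = R → C.Sm ρ₀ →
      ∀ r : ℝ, 0 < r → ∃ s₀ : ℝ, 0 < s₀ ∧ ∀ s : ℝ, 0 < s → s ≤ s₀ → ∀ᶠ n in atTop,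
        rS s (δ n) ≤ rR r (δ n) ∧ 8 ≤ H446.G.Nn s (δ n) ∧
        ∀ (A : Hst) (j : ℕ), Bef (exn δ N k p S ψn n) C.T C.R A j →
          ∀ v ∈ hbox (vd (p n) (k n) C.Ld s (δ n)) (H446.G.Nn s (δ n)),
            v ∈ dk (p n) (k n) (S n) A j ∧
            (∀ c : Bool, v ∉ bad (p n) (k n) (S n) (δ n) r s A j c) ∧
            ∀ P ∈ Fam C.Ld C.Lc C.m C.B s,
              v ∈ dom (H446.G.Nn s (δ n)) (vd (p n) (k n) C.Ld s (δ n)) P := by
  have hK' := hK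
  obtain ⟨r', hr', hst⟩ := hK'
  obtain ⟨ρ₁, hρ₁, hfl⟩ := H918.fls_pt H hr' hst hT hR
  set X1 : ℝ := 4 * (R + 1) + 16 * (T + 1) with hX1
  obtain ⟨rf, cg, X3, b1, b2, b3, b4, hflt⟩ := H918.flt_row H hK (X1 := X1) (by positivity)
    (r₁ := 1) one_pos
  refine ⟨min (ρ₁ / 4) (rf / 8), by positivity, fun C hCT hCR hC r hr => ?_⟩
  obtain ⟨c1, c2, c3, c4⟩ := hC
  have c5 := c4.trans (min_le_left _ _)
  have c6 := c4.trans (min_le_right _ _)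
  have hLd : 0 < C.Ld := by linarith
  refine ⟨min (C.m / 2) (min (r / 7200) (rf / 16000)), by positivity, fun s hs hs₀ => ?_⟩
  have s1 : s ≤ C.m / 2 := hs₀.trans (min_le_left _ _)
  have s2 : s ≤ r / 7200 := hs₀.trans ((min_le_right _ _).trans (min_le_left _ _))
  have s3 : s ≤ rf / 16000 := hs₀.trans ((min_le_right _ _).trans (min_le_right _ _))
  have hδ0 : ∀ n, 0 < δ n := fun n => (H.appr.1 n).1
  have hNe := (H446.G.tendsto_Nn hδ0 H.appr.2.1 hs).eventually_ge_atTop 8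
  have hde := (Metric.tendsto_nhds.1 H.appr.2.1) (s / 8) (by positivity)
  filter_upwards [hfl, hflt, H653.St.hst_st H hT hR one_pos, H756.drv H hT hR zero_lt_one, hNe, hde]
    with n g1 g2 g3 g4 g5 g6
  have hδ := hδ0 n
  rw [dist_zero_right, Real.norm_of_nonneg hδ.le] at g6
  have hdl := H446.G.dl_pos hδ
  have hdδ : H446.G.dl (δ n) ≤ δ n := by
    unfold H446.G.dl
    refine div_le_self hδ.le ?_
    rw [Real.one_le_sqrt]
    norm_num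
  have hδd := del_dl hδ
  obtain ⟨k1, k2, -, -, -, k6⟩ := cst_all (a := 100) (s := s) (r := r) (by norm_num) hδ
    (by linarith) (by linarith)
  have k6' := k6 rf (by linarith)
  refine ⟨by unfold rS rR; omega, g5, ?_⟩
  rintro A j hB v hv
  rw [hCT, hCR] at hB
  obtain ⟨hA, hj, hb⟩ := hB
  set NN : ℕ := H446.G.Nn s (δ n) with hNN
  set D : ℕ := H446.G.Ku C.Ld s * NN + NN / 2 with hD
  have hvd : vd (p n) (k n) C.Ld s (δ n) = ro (p n (k n)) - ((D : ℤ), 0) := rfl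
  -- the lengths
  have hN1 : H446.G.dl (δ n) * (NN : ℝ) ≤ s := H446.G.Nn_le hs hδ
  have hD2 : H446.G.dl (δ n) * (D : ℝ) ≤ C.Ld + s := dist_D hδ hs hLd.le
  rw [BR.mem_hbox, hvd] at hv
  simp only [Prod.fst_sub, Prod.snd_sub, sub_zero] at hv
  obtain ⟨v1, v2, v3, v4⟩ := hv
  refine ⟨?_, ?_, ?_⟩
  · -- the explored domain
    have hND : (NN : ℤ) ≤ (D : ℤ) := by
      have h1 : 1 ≤ H446.G.Ku C.Ld s := H446.G.le_Ku hs (by push_cast; linarith)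
      have : NN ≤ D := by
        rw [hD]
        calc NN = 1 * NN := (one_mul _).symm
          _ ≤ H446.G.Ku C.Ld s * NN := Nat.mul_le_mul_right _ h1
          _ ≤ _ := Nat.le_add_right _ _
      exact_mod_cast this
    have hFl := (g1 A hA j hj hb).1 (D : ℤ) (NN : ℤ) hND (by
      push_cast
      have h1 : ((D : ℝ) + NN) * δ n ≤ ((D : ℝ) + NN) * (2 * H446.G.dl (δ n)) :=
        mul_le_mul_of_nonneg_left hδd (by positivity)
      have h2 : ((D : ℝ) + NN) * (2 * H446.G.dl (δ n)) =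
          2 * (H446.G.dl (δ n) * D) + 2 * (H446.G.dl (δ n) * NN) := by ring
      linarith)
    refine (hFl.dom v (H166.mem_Bq.2 ?_)).2 ?_
    · simp only [Prod.fst_sub, Prod.snd_sub, sub_zero]
      omega
    · simp only [Prod.snd_sub, sub_zero]
      exact v3
  · -- off `Bad`
    intro c
    obtain ⟨Gt, x₁, hF⟩ := g2 (ro (p n (k n))) rfl
    obtain ⟨-, hD', -, -⟩ := g3 A j ⟨hA, hj, hb⟩ (ro (p n (k n)))
    obtain ⟨hdr, -⟩ := g4 A hA j hj hb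
    refine not_bad hF hdr (by rw [hX1]; linarith) (by rw [hX1]; nlinarith) hδ k1 k2
      (v₁ := ro (p n (k n))) hD' (by linarith) k6' ?_
    simp only [sub_self, Int.cast_zero, mul_zero]
    exact frm_box hδ v1 v2 v3 v4 (by linarith)
  · -- the shape
    intro P hP
    have hm : 2 ≤ H446.G.Ku C.m s := H446.G.le_Ku hs (by push_cast; linarith)
    refine hbox_dom hP.1 hm (by omega) ?_
    rw [BR.mem_hbox, hvd]
    simp only [Prod.fst_sub, Prod.snd_sub, sub_zero]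
    exact ⟨v1, v2, v3, v4⟩

end

end Vale.Agent.P167.H713.Q
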