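import Vale.Agent.P167.H713.Q.InpS
import Vale.Agent.P167.H713.Q.HT
import Vale.Agent.P167.H72.SD.LoP
import Vale.Agent.P167.H72.SD.Met

/-!
# P167, general `q`, [SAND-GEO]: `Inp` from the seam, for all histories
-/

set_option autoImplicit false

namespace Vale.Agent.P167.H713.Q

open Filter Topology Set
open Vale.Agent.P167.E6 (edges Medial pt dir)
open Vale.Agent.P167.E2 (len nu)
open Vale.Agent.P167.H192 (ro)
open Vale.Agent.P167.H411 (exn Set6)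
open Vale.Agent.P167.H446.G (Bef Cst Fam Inp rS rR vd bad Hst)
open Vale.Agent.P167.BR (hbox)
open Vale.Agent.P167.QT (Sh4 dom arcc)
open Vale.Agent.P167.H72.SD (dk Wr)

/-- The base square: the top row of the box at `d`. -/
noncomputable def x0 (N : ℕ) (v : ℤ × ℤ) : ℤ × ℤ := v + (0, (N : ℤ) - 1)

theorem x0_mem {N : ℕ} (hN : 0 < N) (v : ℤ × ℤ) : x0 N v ∈ hbox v N := by
  rw [BR.mem_hbox]
  simp only [x0, Prod.fst_add, Prod.snd_add]
  omega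

section

variable {Φ : (ℝ × ℝ) ≃ₜ (ℝ × ℝ)} {ψ : ℂ → ℂ} {δ : ℕ → ℝ} {N k : ℕ → ℕ}
  {p : ∀ n, ZMod (N n) → ℤ × ℤ} {S : ℕ → Finset (ℤ × ℤ)} {ψn : ℕ → ℂ → ℂ}

/-- **The lattice relation from the seam, all histories.** -/
theorem inp_all (H : Set6 Φ ψ δ N k p S ψn) (hK : QE.Stair 3 Φ δ N k p S) {T R : ℝ}
    (hT : 0 ≤ T) (hR : 0 ≤ R) : ∃ ρ₀ : ℝ, 0 < ρ₀ ∧ ∀ C : Cst, C.T = T → C.R = R → C.Sm ρ₀ →
      ∀ r : ℝ, 0 < r → ∃ s₀ : ℝ, 0 < s₀ ∧ ∀ s : ℝ, 0 < s → s ≤ s₀ → ∀ᶠ n in atTop,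
        8 ≤ H446.G.Nn s (δ n) ∧
        ∀ (A : Hst) (j : ℕ), Bef (exn δ N k p S ψn n) C.T C.R A j → ∀ c : Bool,
          ∀ P ∈ Fam C.Ld C.Lc C.m C.B s,
            (x0 (H446.G.Nn s (δ n)) (vd (p n) (k n) C.Ld s (δ n)) ∈
                dom (H446.G.Nn s (δ n)) (vd (p n) (k n) C.Ld s (δ n)) P ∧
              x0 (H446.G.Nn s (δ n)) (vd (p n) (k n) C.Ld s (δ n)) ∈ dk (p n) (k n) (S n) A j ∧
              x0 (H446.G.Nn s (δ n)) (vd (p n) (k n) C.Ld s (δ n)) ∉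
                bad (p n) (k n) (S n) (δ n) r s A j c) ∧
            ∀ Pm O Fl : Set ℂ,
              Seam c (p n) (k n) (S n) A j (δ n) (bad (p n) (k n) (S n) (δ n) r s A j c)
                (dom (H446.G.Nn s (δ n)) (vd (p n) (k n) C.Ld s (δ n)) P)
                (QT.ext (H446.G.Nn s (δ n)) (vd (p n) (k n) C.Ld s (δ n)) P)
                (H446.G.wf C (p n) (k n) (S n) (δ n) s)
                (Wr (dom (H446.G.Nn s (δ n)) (vd (p n) (k n) C.Ld s (δ n)) P)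
                  (QT.ext (H446.G.Nn s (δ n)) (vd (p n) (k n) C.Ld s (δ n)) P))
                (arcc (H446.G.Nn s (δ n)) (vd (p n) (k n) C.Ld s (δ n)) P)
                (x0 (H446.G.Nn s (δ n)) (vd (p n) (k n) C.Ld s (δ n))) Pm O Fl →
              Inp C (p n) (k n) (S n) (δ n) r s A j c P := by
  obtain ⟨ρ₁, hρ₁, hbx⟩ := box_all H hK hT hR
  obtain ⟨ρ₂, hρ₂, hmet⟩ := H72.SD.lo_met H hT hR
  refine ⟨min ρ₁ (ρ₂ / 8), by positivity, fun C hCT hCR hC r hr => ?_⟩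
  have hC' : C.Sm ρ₁ := ⟨hC.m_pos, hC.m_Ld, hC.Ld_Lc, hC.Lc_le.trans (min_le_left _ _)⟩
  have hC2 := hC.Lc_le.trans (min_le_right _ _)
  have c1 := hC.m_pos
  have c2 := hC.m_Ld
  have c3 := hC.Ld_Lc
  have hLc : 0 < C.Lc := by linarith
  obtain ⟨s₀, hs₀, hs₁⟩ := hbx C hCT hCR hC' r hr
  refine ⟨min s₀ (C.m / 2), by positivity, fun s hs hss => ?_⟩
  have s1 : s ≤ s₀ := hss.trans (min_le_left _ _)
  have s2 : s ≤ C.m / 2 := hss.trans (min_le_right _ _)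
  have hde := (Metric.tendsto_nhds.1 H.appr.2.1) s hs
  filter_upwards [hs₁ s hs s1, hmet, H411.good_ev H.appr, hde] with n g1 g2 g3 g4
  obtain ⟨h1, h2, h3⟩ := g1
  obtain ⟨hδ, hk0, hkN, hp, hS⟩ := H.appr.1 n
  rw [dist_zero_right, Real.norm_of_nonneg hδ.le] at g4
  refine ⟨h2, ?_⟩
  intro A j hB c P hP
  have hN : 0 < H446.G.Nn s (δ n) := by omega
  have hx := x0_mem hN (vd (p n) (k n) C.Ld s (δ n))
  obtain ⟨b1, b2, b3⟩ := h3 A j hB _ hx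
  refine ⟨⟨b3 P hP, b1, b2 c⟩, fun Pm O Fl hSe => ?_⟩
  have hB' := hB
  rw [hCT, hCR] at hB'
  have hA' : A ⊆ edges (S n) := (H411.mem_Qc (p := p n) (k := k n) (δ := δ n)).1 hB.1
  have hj : j < nu (p n) (k n) A := hB.2.1
  have hj' : j - 1 ≤ len (p n) (k n) A := by
    unfold nu at hj
    omega
  have hTT : hbox (vd (p n) (k n) C.Ld s (δ n)) (H446.G.Nn s (δ n)) ⊆
      TT (p n) (k n) (S n) A j (bad (p n) (k n) (S n) (δ n) r s A j c)
        (dom (H446.G.Nn s (δ n)) (vd (p n) (k n) C.Ld s (δ n)) P) := by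
    intro v hv
    obtain ⟨b1, b2, b3⟩ := h3 A j hB v hv
    exact mem_TT.2 ⟨⟨b1, b2 c⟩, b3 P hP⟩
  cases c with
  | true => exact inp_up hSe hδ hp hS hk0 g3 hA' hj' h1 hx hTT
  | false =>
    refine inp_lo hSe hδ hp hS hk0 g3 hA' hj' h1 hx hTT ?_ ?_ ?_
    · exact fun v hv w hw => H72.SD.dom_joined hP.1.poly hP.1.encl (by omega)
        (H446.G.even_vd _ _ _ _ _) hv hw
    · exact fun s' hs' => H72.SD.arcc_bd hP.1.poly hP.1.encl hN hs'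
    · refine g2 A j hB' _ ?_
      have hδd := del_dl hδ
      have hD2 : H446.G.dl (δ n) * (H446.G.mq C.Lc s (δ n) : ℝ) ≤ C.Lc + s :=
        dist_D hδ hs hLc.le
      have e1 : ((k n : ℝ) - ((k n - (H446.G.mq C.Lc s (δ n) + 1) : ℕ) : ℝ)) ≤
          (H446.G.mq C.Lc s (δ n) : ℝ) + 1 := by
        have : (k n : ℤ) - ((k n - (H446.G.mq C.Lc s (δ n) + 1) : ℕ) : ℤ) ≤
            (H446.G.mq C.Lc s (δ n) : ℤ) + 1 := by omega
        exact_mod_cast this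
      have e2 : (H446.G.mq C.Lc s (δ n) : ℝ) * δ n ≤
          (H446.G.mq C.Lc s (δ n) : ℝ) * (2 * H446.G.dl (δ n)) :=
        mul_le_mul_of_nonneg_left hδd (by positivity)
      have e3 := mul_le_mul_of_nonneg_right e1 hδ.le
      have e4 : ((H446.G.mq C.Lc s (δ n) : ℝ) + 1) * δ n =
          (H446.G.mq C.Lc s (δ n) : ℝ) * δ n + δ n := by ring
      have e5 : (H446.G.mq C.Lc s (δ n) : ℝ) * (2 * H446.G.dl (δ n)) =
          2 * (H446.G.dl (δ n) * (H446.G.mq C.Lc s (δ n) : ℝ)) := by ring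
      linarith

end

end Vale.Agent.P167.H713.Q
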