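import Vale.Agent.P167.H713.Q.Chain

/-!
# P167, general `q`, [SAND-GEO]: the fields of `Up` and `Lo` from the seam
-/

set_option autoImplicit false

namespace Vale.Agent.P167.H713.Q

open Set Filter Topology Metric Relation
open Vale.Agent.P145.FB (PStep)
open Vale.Agent.P167.E6 Vale.Agent.P167.E2
open Vale.Agent.P167.H634 (RO LO SqD Sq1)
open Vale.Agent.P167.H72.SD (dk om Wr Kc LB RB ComW ComS WD)
open Vale.Agent.P167.H161 (zp Rd mem_Rd)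
open Vale.Agent.P167.FKA (Cor)

/-- The squares near the two sides (lattice lemmas). -/
structure NL {n : ℕ} (p : ZMod n → ℤ × ℤ) (k : ℕ) (S : Finset (ℤ × ℤ))
    (A : Finset (Sym2 (ℤ × ℤ))) (j : ℕ) (δ : ℝ) : Prop where
  n1 : ∀ u ∈ dk p k S A j, ∀ o ∈ RB p k A j, Cor u o →
    (Io δ u ∩ Om δ S ∩ RO p k S A δ (j - 1)).Nonempty
  n2 : ∀ u ∈ dk p k S A j, ∀ o ∈ LB p k A j, Cor u o →
    (Io δ u ∩ Om δ S ∩ LO p k A δ (j - 1)).Nonempty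
  n3 : ∀ x ∈ dk p k S A j, ∀ s, (s.1 + s.2) % 2 = 1 → Cor x s → H192.rf' s ∉ S →
    (Io δ x ∩ Om δ S ∩ RO p k S A δ (j - 1)).Nonempty
  n4 : ∀ x ∈ dk p k S A j, ∀ i : ℕ, k ≤ i → i < n → Cor x (H192.ro (p i)) →
    (Io δ x ∩ Om δ S ∩ LO p k A δ (j - 1)).Nonempty
  n5 : ∀ x ∈ dk p k S A j, ∀ y, y ∉ H718.Dq S p k → ∀ s, (s.1 + s.2) % 2 = 0 → Cor x s →
    Cor y s → s ∈ Wr (dk p k S A j) (om p k A) ∨
      (∃ u ∈ dk p k S A j, ∃ o, (o.1 + o.2) % 2 = 1 ∧ Cor u s ∧ Cor u o ∧ H192.rf' o ∉ S) ∨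
      ∃ u ∈ dk p k S A j, ∃ o ∈ RB p k A j, Cor u s ∧ Cor u o

section

variable {n : ℕ} {p : ZMod n → ℤ × ℤ} {k : ℕ} {S : Finset (ℤ × ℤ)} {A : Finset (Sym2 (ℤ × ℤ))}
  {j : ℕ} {δ : ℝ} {x u y s o : ℤ × ℤ} {c : Bool} {Bd P : Finset (ℤ × ℤ)} {ζ : Cfg}
  {W WP arcP : Set (ℤ × ℤ)} {x₀ : ℤ × ℤ} {Pm O Fl : Set ℂ}

theorem not_inn (h : ¬ inn S s) : (s.1 + s.2) % 2 = 1 ∧ H192.rf' s ∉ S := by
  unfold inn at h
  push Not at h
  have h1 := parity_cases s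
  exact ⟨h1.resolve_left h.1, h.2⟩

theorem Seam.cl (h : Seam c p k S A j δ Bd P ζ W WP arcP x₀ Pm O Fl)
    (hx : x ∈ EE (TT p k S A j Bd P) S x₀) (hy : y ∈ dk p k S A j \ Bd) (hyP : y ∈ P)
    (hs : inn S s) (hxs : Cor x s) (hys : Cor y s) : y ∈ EE (TT p k S A j Bd P) S x₀ := by
  rw [Finset.mem_sdiff] at hy
  exact EE_step hx (mem_TT.2 ⟨hy, hyP⟩) hs hxs hys

/-- Outer faces near the flat part. -/
theorem Seam.outer (h : Seam c p k S A j δ Bd P ζ W WP arcP x₀ Pm O Fl)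
    (hx : x ∈ EE (TT p k S A j Bd P) S x₀) (hs : (s.1 + s.2) % 2 = 1) (hxs : Cor x s)
    (hS : H192.rf' s ∉ S) {w : ℂ} (hw : w ∈ Fl) (hws : dist w (zp δ s) ≤ 6 * δ) :
    ∀ y ∈ dk p k S A j \ Bd, y ∈ P → Cor y s → y ∈ EE (TT p k S A j Bd P) S x₀ := by
  have hxD : x ∈ H718.Dq S p k := (Finset.mem_sdiff.1 (mem_E' hx).1).1
  intro y hy hyP hys
  have hyD : y ∈ H718.Dq S p k := (Finset.mem_sdiff.1 (Finset.mem_sdiff.1 hy).1).1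
  obtain ⟨s', h1, h2, h3⟩ := h.flo w hw s hws hs hS x hxD y hyD hxs hys
  exact h.cl hx hy hyP (Or.inl h1) h2 h3

/-! ### The upper bound -/

theorem Seam.up_bxo (h : Seam true p k S A j δ Bd P ζ W WP arcP x₀ Pm O Fl)
    (N : NL p k S A j δ) (hδ : 0 < δ) (hA : A ⊆ edges S) (hj : j - 1 ≤ len p k A)
    (hx : x ∈ EE (TT p k S A j Bd P) S x₀) (hs : (s.1 + s.2) % 2 = 1) (hxs : Cor x s)
    (hS : H192.rf' s ∉ S) : (∃ w ∈ Fl, dist w (zp δ s) ≤ δ) ∧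
      ∀ y ∈ dk p k S A j \ Bd, y ∈ P → Cor y s → y ∈ EE (TT p k S A j Bd P) S x₀ := by
  obtain ⟨w, hw, hwx⟩ := h.near_self hδ hA hj hx (N.n3 x (mem_E' hx).1 s hs hxs hS)
  have h1 := dist_SqD hδ hwx (cor_SqD hδ hxs)
  exact ⟨⟨w, hw, h1⟩, h.outer hx hs hxs hS hw (by linarith)⟩

theorem Seam.up_t3 (h : Seam true p k S A j δ Bd P ζ W WP arcP x₀ Pm O Fl)
    (N : NL p k S A j δ) (hδ : 0 < δ) (hA : A ⊆ edges S) (hj : j - 1 ≤ len p k A)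
    (hx : x ∈ EE (TT p k S A j Bd P) S x₀) (hu : u ∈ dk p k S A j) (hxs : Cor x s)
    (hus : Cor u s) (ho : o ∈ RB p k A j) : ¬ Cor u o := by
  intro huo
  have h2 := dist_SqD hδ (cor_SqD hδ hus) (cor_SqD hδ huo)
  by_cases hs : inn S s
  · have h1 := h.near_site hδ hA hj hx hu hs hxs hus (N.n1 u hu o ho huo)
    have := h.far _ h1 o (Or.inr ho)
    linarith
  · obtain ⟨h3, h4⟩ := not_inn hs
    obtain ⟨⟨w, hw, h5⟩, -⟩ := h.up_bxo N hδ hA hj hx h3 hxs h4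
    have h6 := h.far _ hw o (Or.inr ho)
    have h7 := dist_triangle w (zp δ s) (zp δ o)
    linarith

theorem Seam.up_t4w (h : Seam true p k S A j δ Bd P ζ W WP arcP x₀ Pm O Fl)
    (hδ : 0 < δ) (hA : A ⊆ edges S) (hj : j - 1 ≤ len p k A)
    (hx : x ∈ EE (TT p k S A j Bd P) S x₀) (hy : y ∈ dk p k S A j \ Bd) (hyP : y ∉ P)
    (hζ : ζ y = true) (hs : (s.1 + s.2) % 2 = 0) (hxs : Cor x s) (hys : Cor y s) : False := by
  have h1 := h.arc_site hδ hA hj hx hy hyP (Or.inl hs) hxs hys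
  unfold Arc at h1
  rw [if_pos rfl] at h1
  have h2 := h1.1 hs y hyP hys
  rw [h2] at hζ
  exact Bool.noConfusion hζ

theorem Seam.up_t4 (h : Seam true p k S A j δ Bd P ζ W WP arcP x₀ Pm O Fl)
    (N : NL p k S A j δ) (hδ : 0 < δ) (hA : A ⊆ edges S) (hj : j - 1 ≤ len p k A)
    (hx : x ∈ EE (TT p k S A j Bd P) S x₀) (hy : y ∈ dk p k S A j \ Bd) (hyP : y ∉ P)
    (hs : (s.1 + s.2) % 2 = 1) (hxs : Cor x s) (hys : Cor y s) : s ∈ arcP := by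
  by_cases hi : inn S s
  · have h1 := h.arc_site hδ hA hj hx hy hyP hi hxs hys
    unfold Arc at h1
    rw [if_pos rfl] at h1
    exact h1.2 hs
  · obtain ⟨⟨w, hw, h1⟩, -⟩ := h.up_bxo N hδ hA hj hx hs hxs (not_inn hi).2
    exact absurd (h.flp w hw s (by linarith) hs (not_inn hi).2 x (mem_E' hx).2.2 y
      (Finset.mem_sdiff.1 (Finset.mem_sdiff.1 hy).1).1 hxs hys) hyP

theorem Seam.up_bx (h : Seam true p k S A j δ Bd P ζ W WP arcP x₀ Pm O Fl)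
    (N : NL p k S A j δ) (hδ : 0 < δ) (hA : A ⊆ edges S) (hj : j - 1 ≤ len p k A)
    (hx : x ∈ EE (TT p k S A j Bd P) S x₀) (hy : y ∉ H718.Dq S p k)
    (hs : (s.1 + s.2) % 2 = 0) (hxs : Cor x s) (hys : Cor y s) :
    s ∈ Wr (dk p k S A j) (om p k A) ∨ ComW p k S A j Bd P ζ s := by
  have hxd := (mem_E' hx).1
  rcases N.n5 x hxd y hy s hs hxs hys with h1 | ⟨u, hu, o, ho, hus, huo, hoS⟩ |
    ⟨u, hu, o, ho, hus, huo⟩
  · exact Or.inl h1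
  · right
    have h1 := h.near_site hδ hA hj hx hu (Or.inl hs) hxs hus (N.n3 u hu o ho huo hoS)
    refine ⟨h.com' hδ hxd (mem_E' hx).2.2 hxs hs h1 (cor_SqD hδ hxs), ?_⟩
    refine h.cout rfl _ h1 s ?_ hs ⟨x, (Finset.mem_sdiff.1 hxd).1, hxs⟩ ⟨x, (mem_E' hx).2.2, hxs⟩
    rw [dist_self]
    positivity
  · exfalso
    have h1 := h.near_site hδ hA hj hx hu (Or.inl hs) hxs hus (N.n1 u hu o ho huo)
    have h2 := h.far _ h1 o (Or.inr ho)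
    have h3 := dist_SqD hδ (cor_SqD hδ hus) (cor_SqD hδ huo)
    linarith

theorem Seam.up_arc (h : Seam true p k S A j δ Bd P ζ W WP arcP x₀ Pm O Fl)
    (N : NL p k S A j δ) (hδ : 0 < δ) (hA : A ⊆ edges S) (hj : j - 1 ≤ len p k A)
    (hx : x ∈ EE (TT p k S A j Bd P) S x₀) (hsW : s ∈ W) (hs : (s.1 + s.2) % 2 = 1)
    (hxs : Cor x s) : s ∈ arcP := by
  obtain ⟨⟨w, hw, h1⟩, -⟩ := h.up_bxo N hδ hA hj hx hs hxs (h.wout s hsW hs)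
  exact (h.fw w hw s (by linarith) hs ⟨x, (mem_E' hx).2.2, hxs⟩
    ⟨x, (Finset.mem_sdiff.1 (mem_E' hx).1).1, hxs⟩).1 rfl hsW

/-! ### The lower bound -/

theorem Seam.lo_hT (h : Seam false p k S A j δ Bd P ζ W WP arcP x₀ Pm O Fl)
    (hBd : Bd ⊆ dk p k S A j) (hx : x ∈ Bd) (hs : (s.1 + s.2) % 2 = 1) (hxs : Cor x s)
    (hS : H192.rf' s ∉ S) : s ∈ W := by
  have hxD : x ∈ H718.Dq S p k := (Finset.mem_sdiff.1 (hBd hx)).1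
  rcases h.wfl x hxD s hs hxs hS with h1 | ⟨w, hw, h1⟩
  · exact h1
  · exact absurd hx (h.cbd rfl w hw s h1 hs ⟨x, hxD, hxs⟩ x hxs)

theorem Seam.lo_bxo (h : Seam false p k S A j δ Bd P ζ W WP arcP x₀ Pm O Fl)
    (hx : x ∈ EE (TT p k S A j Bd P) S x₀) (hs : (s.1 + s.2) % 2 = 1) (hxs : Cor x s)
    (hS : H192.rf' s ∉ S) : s ∈ W ∨ (ComS p k S A j Bd P s ∧
      (∀ y ∈ dk p k S A j \ Bd, y ∈ P → Cor y s → y ∈ EE (TT p k S A j Bd P) S x₀) ∧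
      (s ∈ arcP → s ∈ W)) := by
  have hxD : x ∈ H718.Dq S p k := (Finset.mem_sdiff.1 (mem_E' hx).1).1
  rcases h.wfl x hxD s hs hxs hS with h1 | ⟨w, hw, h1⟩
  · exact Or.inl h1
  · exact Or.inr ⟨h.com w hw s h1 hs ⟨x, hxD, hxs⟩ ⟨x, (mem_E' hx).2.2, hxs⟩,
      h.outer hx hs hxs hS hw h1,
      (h.fw w hw s h1 hs ⟨x, (mem_E' hx).2.2, hxs⟩ ⟨x, hxD, hxs⟩).2 rfl⟩

theorem Seam.lo_t3 (h : Seam false p k S A j δ Bd P ζ W WP arcP x₀ Pm O Fl)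
    (N : NL p k S A j δ) (hδ : 0 < δ) (hA : A ⊆ edges S) (hj : j - 1 ≤ len p k A)
    (hx : x ∈ EE (TT p k S A j Bd P) S x₀) (hu : u ∈ dk p k S A j) (hs : inn S s)
    (hxs : Cor x s) (hus : Cor u s) (ho : o ∈ LB p k A j) : ¬ Cor u o := by
  intro huo
  have h2 := dist_SqD hδ (cor_SqD hδ hus) (cor_SqD hδ huo)
  have h1 := h.near_site hδ hA hj hx hu hs hxs hus (N.n2 u hu o ho huo)
  have := h.far _ h1 o (Or.inl ho)
  linarith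

theorem Seam.lo_t4 (h : Seam false p k S A j δ Bd P ζ W WP arcP x₀ Pm O Fl)
    (hδ : 0 < δ) (hA : A ⊆ edges S) (hj : j - 1 ≤ len p k A)
    (hx : x ∈ EE (TT p k S A j Bd P) S x₀) (hy : y ∈ dk p k S A j \ Bd) (hyP : y ∉ P)
    (hi : inn S s) (hxs : Cor x s) (hys : Cor y s) :
    ((s.1 + s.2) % 2 = 0 → s ∈ WP) ∧ ((s.1 + s.2) % 2 = 1 → s ∉ arcP) := by
  have h1 := h.arc_site hδ hA hj hx hy hyP hi hxs hys
  unfold Arc at h1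
  rwa [if_neg (by simp)] at h1

theorem wired_of_open (hp : IsPolygon p) (hA : A ⊆ edges S) (hy : y ∉ H718.Dq S p k)
    (ho : om p k A y = true) (hs : (s.1 + s.2) % 2 = 0) (hys : Cor y s) :
    ∃ i : ℕ, k ≤ i ∧ i < n ∧ s = H192.ro (p i) := by
  obtain ⟨i, hi1, hi2, h1⟩ := H72.SD.open_out hA hy ho
  obtain ⟨d, hd⟩ := hp.2.2 (i : ZMod n)
  have hv1 : y = H192.sq s(p i, p i + dir d) := by
    rw [← hd, ← h1, H192.sq_ed]
  rw [hv1] at hys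
  rcases even_cor hs hys with h2 | h2
  · exact ⟨i, hi1, by omega, h2⟩
  · refine ⟨i + 1, by omega, hi2, ?_⟩
    rw [h2, ← hd]
    push_cast
    rfl

theorem Seam.lo_bxe (h : Seam false p k S A j δ Bd P ζ W WP arcP x₀ Pm O Fl)
    (N : NL p k S A j δ) (hδ : 0 < δ) (hp : IsPolygon p) (hA : A ⊆ edges S)
    (hj : j - 1 ≤ len p k A) (hx : x ∈ EE (TT p k S A j Bd P) S x₀)
    (hy : y ∉ H718.Dq S p k) (ho : om p k A y = true) (hs : (s.1 + s.2) % 2 = 0)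
    (hxs : Cor x s) (hys : Cor y s) : s ∈ WP := by
  obtain ⟨i, h1, h2, rfl⟩ := wired_of_open hp hA hy ho hs hys
  have hxd := (mem_E' hx).1
  obtain ⟨w, hw, hwx⟩ := h.near_self hδ hA hj hx (N.n4 x hxd i h1 h2 hxs)
  exact h.wpf rfl w hw _ (by linarith [dist_SqD hδ hwx (cor_SqD hδ hxs)]) hs
    ⟨x, (mem_E' hx).2.2, hxs⟩ ⟨y, hy, ho, hys⟩

theorem Seam.lo_bxi (h : Seam false p k S A j δ Bd P ζ W WP arcP x₀ Pm O Fl)
    (N : NL p k S A j δ) (hδ : 0 < δ) (hp : IsPolygon p) (hA : A ⊆ edges S)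
    (hj : j - 1 ≤ len p k A) (hx : x ∈ EE (TT p k S A j Bd P) S x₀)
    (hs : (s.1 + s.2) % 2 = 1) (hsS : H192.rf' s ∈ S) (hxs : Cor x s)
    (hu : u ∈ dk p k S A j) (hus : Cor u s) (hy : y ∉ H718.Dq S p k)
    (hyo : om p k A y = true) (ho : (o.1 + o.2) % 2 = 0) (huo : Cor u o) (hyo' : Cor y o) :
    ComS p k S A j Bd P s ∧ (s ∈ arcP → s ∈ W) := by
  obtain ⟨i, h1, h2, rfl⟩ := wired_of_open hp hA hy hyo ho hyo'
  have hxd := (mem_E' hx).1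
  have h3 := h.near_site hδ hA hj hx hu (Or.inr hsS) hxs hus (N.n4 u hu i h1 h2 huo)
  refine ⟨h.com' hδ hxd (mem_E' hx).2.2 hxs hs h3 (cor_SqD hδ hxs), ?_⟩
  refine (h.fw _ h3 s ?_ hs ⟨x, (mem_E' hx).2.2, hxs⟩
    ⟨x, (Finset.mem_sdiff.1 hxd).1, hxs⟩).2 rfl
  rw [dist_self]
  positivity

end

end Vale.Agent.P167.H713.Q
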