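import Vale.Agent.P167.H713.Q.Comp
import Vale.Agent.P167.H72.SD.Lat3
import Vale.Agent.P167.H634.CellQ

/-!
# P167, general `q`, [SAND-GEO]: the squares of `Bad` are joined to the bank of their colour

`badj_up`, `badj_lo`: the fields `badj` of `Up` and of `Lo`.
-/

set_option autoImplicit false

namespace Vale.Agent.P167.H713.Q

open Set Filter Topology Metric Relation
open Vale.Agent.P145.FB (PStep)
open Vale.Agent.P167.E6 Vale.Agent.P167.E2
open Vale.Agent.P167.H634 (RO LO SqD Sq1 Dm Dm_sq Near PSt DSt Fr Avo near_of_closure)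
open Vale.Agent.P167.H72.SD (dk om Wr Kc WD ed_sqr_dir)
open Vale.Agent.P167.H161 (zp Rd mem_Rd)
open Vale.Agent.P167.FKA (Cor)

section

variable {n : ℕ} {p : ZMod n → ℤ × ℤ} {k : ℕ} {S : Finset (ℤ × ℤ)} {A : Finset (Sym2 (ℤ × ℤ))}
  {j : ℕ} {δ : ℝ} {v s z : ℤ × ℤ} {u w : ℂ} {ρ R : ℕ}

/-- The even corners of the square of an edge are its vertices. -/
theorem even_cor {a : ℤ × ℤ} {r : Fin 4} (hs : (s.1 + s.2) % 2 = 0)
    (h : Cor (H192.sq s(a, a + dir r)) s) : s = H192.ro a ∨ s = H192.ro (a + dir r) := by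
  have h3 : Cor (H72.SD.sqr (H192.ro a) (H192.ro (a + dir r))) s := by
    rw [ed_sqr_dir]
    exact h
  obtain ⟨h4, h5⟩ := H192.ro_dir a r
  have he1 := Int.even_iff.1 (H192.even_ro a)
  have he2 := Int.even_iff.1 (H192.even_ro (a + dir r))
  obtain ⟨h6, h7⟩ := h3
  unfold H72.SD.sqr at h6 h7
  dsimp only at h6 h7
  rw [Prod.ext_iff, Prod.ext_iff]
  omega

theorem pt_O1 {a f : ℤ × ℤ} (hf : f ∈ S) (h1 : f.1 ≤ a.1 ∧ a.1 ≤ f.1 + 1)
    (h2 : f.2 ≤ a.2 ∧ a.2 ≤ f.2 + 1) : pt a ∈ O1 (S : Set (ℤ × ℤ)) := by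
  have a1 : (f.1 : ℝ) ≤ a.1 := by exact_mod_cast h1.1
  have a2 : (a.1 : ℝ) ≤ f.1 + 1 := by exact_mod_cast h1.2
  have a3 : (f.2 : ℝ) ≤ a.2 := by exact_mod_cast h2.1
  have a4 : (a.2 : ℝ) ≤ f.2 + 1 := by exact_mod_cast h2.2
  refine ⟨f, hf, ?_, ?_, ?_, ?_⟩ <;> simp only [pt] <;> linarith

theorem near_face (a : ℤ × ℤ) (r : Fin 4) : ((face a r).1 ≤ a.1 ∧ a.1 ≤ (face a r).1 + 1) ∧
    ((face a r).2 ≤ a.2 ∧ a.2 ≤ (face a r).2 + 1) := by
  have key : ∀ r : Fin 4, ((face a r).1 ≤ a.1 ∧ a.1 ≤ (face a r).1 + 1) ∧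
      ((face a r).2 ≤ a.2 ∧ a.2 ≤ (face a r).2 + 1) := by
    refine forall4 ?_ ?_ ?_ ?_ <;> simp only [face0, face1, face2, face3] <;> omega
  exact key r

/-- The even corners of a square of the domain are in `Om`. -/
theorem even_Om (hδ : 0 < δ) (hv : H192.ed v ∈ edges S) (hs : (s.1 + s.2) % 2 = 0)
    (h : Cor v s) : zp δ s ∈ Om δ S := by
  obtain ⟨a, r, hu⟩ := H192.isEdge_ed v
  have hv' : v = H192.sq s(a, a + dir r) := by rw [← hu, H192.sq_ed]
  rw [hu] at hv
  have h1 := even_cor hs (by rw [← hv']; exact h)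
  have h2 := hv
  rw [E2.mem_edges] at h2
  rcases h1 with rfl | rfl
  · rw [H161.zp_ro, mem_Om hδ]
    rcases h2 with h2 | h2
    · exact pt_O1 h2 (near_face a r).1 (near_face a r).2
    · exact pt_O1 h2 (near_face a (r - 1)).1 (near_face a (r - 1)).2
  · rw [H161.zp_ro, mem_Om hδ]
    have e1 : face (a + dir r) (r + 2) = face a (r - 1) := face_right a r
    have e2 : face (a + dir r) (r + 1) = face a r := face_left a r
    rcases h2 with h2 | h2
    · rw [← e2] at h2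
      exact pt_O1 h2 (near_face _ _).1 (near_face _ _).2
    · rw [← e1] at h2
      exact pt_O1 h2 (near_face _ _).1 (near_face _ _).2

/-- A square in the region of a box has a corner of the parity of the centre inside of the open
region. -/
theorem inner_cor (hδ : 0 < δ) {N : ℕ} (hN : Io δ v ⊆ oR δ z N) :
    ∃ s, (s.1 + s.2) % 2 = (z.1 + z.2) % 2 ∧ Cor v s ∧ zp δ s ∈ oR δ z N := by
  -- the centre of the square
  set q : ℂ := ⟨δ * (v.1 + v.2 + 1) / 2, δ * (v.2 - v.1) / 2⟩ with hq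
  have q1 : q.re - q.im = δ * (v.1 + 1 / 2) := by simp only [hq]; ring
  have q2 : q.re + q.im = δ * (v.2 + 1 / 2) := by simp only [hq]; ring
  have hqI : q ∈ Io δ v := by
    refine ⟨⟨?_, ?_⟩, ?_, ?_⟩
    · rw [q1]; nlinarith
    · rw [q1]; nlinarith
    · rw [q2]; nlinarith
    · rw [q2]; nlinarith
  obtain ⟨b1, b2⟩ := hN hqI
  rw [abs_lt] at b1 b2
  rw [q1] at b1
  rw [q2] at b2
  have c1 : z.1 - N < v.1 + 1 := by
    have h : δ * ((z.1 : ℝ) - N) < δ * (v.1 + 1) := by nlinarith [b1.1]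
    have h2 : (z.1 : ℝ) - N < v.1 + 1 := lt_of_mul_lt_mul_left h hδ.le
    exact_mod_cast h2
  have c2 : v.1 < z.1 + N := by
    have h : δ * (v.1 : ℝ) < δ * (z.1 + N) := by nlinarith [b1.2]
    have h2 : (v.1 : ℝ) < z.1 + N := lt_of_mul_lt_mul_left h hδ.le
    exact_mod_cast h2
  have c3 : z.2 - N < v.2 + 1 := by
    have h : δ * ((z.2 : ℝ) - N) < δ * (v.2 + 1) := by nlinarith [b2.1]
    have h2 : (z.2 : ℝ) - N < v.2 + 1 := lt_of_mul_lt_mul_left h hδ.le
    exact_mod_cast h2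
  have c4 : v.2 < z.2 + N := by
    have h : δ * (v.2 : ℝ) < δ * (z.2 + N) := by nlinarith [b2.2]
    have h2 : (v.2 : ℝ) < z.2 + N := lt_of_mul_lt_mul_left h hδ.le
    exact_mod_cast h2
  -- a corner strictly inside
  obtain ⟨x, y, hx, hy, hp, g1, g2, g3, g4⟩ : ∃ x y : ℤ, (x = v.1 ∨ x = v.1 + 1) ∧
      (y = v.2 ∨ y = v.2 + 1) ∧ (x + y) % 2 = (z.1 + z.2) % 2 ∧ z.1 - N < x ∧ x < z.1 + N ∧
      z.2 - N < y ∧ y < z.2 + N := by
    by_cases h1 : v.1 = z.1 - N
    · by_cases h2 : v.2 = z.2 - N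
      · exact ⟨v.1 + 1, v.2 + 1, Or.inr rfl, Or.inr rfl, by omega, by omega, by omega, by omega,
          by omega⟩
      · by_cases h3 : v.2 + 1 = z.2 + N
        · exact ⟨v.1 + 1, v.2, Or.inr rfl, Or.inl rfl, by omega, by omega, by omega, by omega,
            by omega⟩
        · by_cases h4 : (v.1 + 1 + v.2) % 2 = (z.1 + z.2) % 2
          · exact ⟨v.1 + 1, v.2, Or.inr rfl, Or.inl rfl, h4, by omega, by omega, by omega,
              by omega⟩
          · exact ⟨v.1 + 1, v.2 + 1, Or.inr rfl, Or.inr rfl, by omega, by omega, by omega,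
              by omega, by omega⟩
    · by_cases h1' : v.1 + 1 = z.1 + N
      · by_cases h2 : v.2 = z.2 - N
        · exact ⟨v.1, v.2 + 1, Or.inl rfl, Or.inr rfl, by omega, by omega, by omega, by omega,
            by omega⟩
        · by_cases h3 : v.2 + 1 = z.2 + N
          · exact ⟨v.1, v.2, Or.inl rfl, Or.inl rfl, by omega, by omega, by omega, by omega,
              by omega⟩
          · by_cases h4 : (v.1 + v.2) % 2 = (z.1 + z.2) % 2
            · exact ⟨v.1, v.2, Or.inl rfl, Or.inl rfl, h4, by omega, by omega, by omega,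
                by omega⟩
            · exact ⟨v.1, v.2 + 1, Or.inl rfl, Or.inr rfl, by omega, by omega, by omega,
                by omega, by omega⟩
      · by_cases h2 : v.2 = z.2 - N
        · by_cases h4 : (v.1 + (v.2 + 1)) % 2 = (z.1 + z.2) % 2
          · exact ⟨v.1, v.2 + 1, Or.inl rfl, Or.inr rfl, h4, by omega, by omega, by omega,
              by omega⟩
          · exact ⟨v.1 + 1, v.2 + 1, Or.inr rfl, Or.inr rfl, by omega, by omega, by omega,
              by omega, by omega⟩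
        · by_cases h4 : (v.1 + v.2) % 2 = (z.1 + z.2) % 2
          · exact ⟨v.1, v.2, Or.inl rfl, Or.inl rfl, h4, by omega, by omega, by omega,
              by omega⟩
          · exact ⟨v.1 + 1, v.2, Or.inr rfl, Or.inl rfl, by omega, by omega, by omega,
              by omega, by omega⟩
  refine ⟨(x, y), hp, ⟨hx, hy⟩, ?_⟩
  have key : ∀ a c : ℤ, c - N < a → a < c + N → |δ * (a : ℝ) - δ * c| < δ * N := by
    intro a c h1 h2
    have k1 : (c : ℝ) - N < a := by exact_mod_cast h1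
    have k2 : (a : ℝ) < c + N := by exact_mod_cast h2
    rw [abs_lt]
    constructor <;> nlinarith
  obtain ⟨e1, e2⟩ := zp_coord δ ((x, y) : ℤ × ℤ)
  refine ⟨?_, ?_⟩
  · rw [e1]
    exact key _ _ g1 g2
  · rw [e2]
    exact key _ _ g3 g4

/-- The component of `u` has a point near the path or the boundary. -/
theorem near_Cn (hδ : 0 < δ) {N M : ℕ} (hNM : N ≤ M) (hu : u ∈ Dn p k S A j δ)
    (hur : u ∈ oR δ z N) (hwr : w ∈ oR δ z N) (hnj : w ∉ Cn p k S A j δ z M u) :
    ∃ x ∈ Cn p k S A j δ z N u, Near p k S A δ (j - 1) x := by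
  set C := Cn p k S A j δ z (N : ℝ) u with hC
  have hCo : IsOpen C := isOpen_Cn hδ
  have huC : u ∈ C := mem_connectedComponentIn ⟨hu, hur⟩
  have hmono : C ⊆ Cn p k S A j δ z (M : ℝ) u := by
    refine connectedComponentIn_mono u (inter_subset_inter_right _ ?_)
    rintro y ⟨h1, h2⟩
    have h3 : δ * (N : ℝ) ≤ δ * M := mul_le_mul_of_nonneg_left (by exact_mod_cast hNM) hδ.le
    exact ⟨h1.trans_le h3, h2.trans_le h3⟩
  have hwC : w ∉ C := fun h => hnj (hmono h)
  -- the segment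
  have hseg : IsPreconnected (segment ℝ u w) := (convex_segment u w).isPreconnected
  have hsR : segment ℝ u w ⊆ oR δ z N := (convex_oR δ z N).segment_subset hur hwr
  obtain ⟨x, hxs, hxcl, hxC⟩ : ∃ x ∈ segment ℝ u w, x ∈ closure C ∧ x ∉ C := by
    by_contra hcon
    have h1 : segment ℝ u w ⊆ C ∪ (closure C)ᶜ := by
      intro x hx
      by_cases h2 : x ∈ C
      · exact Or.inl h2
      · exact Or.inr fun h3 => hcon ⟨x, hx, h3, h2⟩
    obtain ⟨x, -, h2, h3⟩ := hseg C (closure C)ᶜ hCo isClosed_closure.isOpen_compl h1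
      ⟨u, left_mem_segment ℝ u w, huC⟩ ⟨w, right_mem_segment ℝ u w,
        (h1 (right_mem_segment ℝ u w)).resolve_left hwC⟩
    exact h3 (subset_closure h2)
  have hxR : x ∈ oR δ z N := hsR hxs
  refine near_of_closure hδ hxcl ?_
  by_cases hxO : x ∈ Om δ S
  · left
    by_contra hpl
    apply hxC
    have hxD : x ∈ Dn p k S A j δ := by
      refine ⟨hxO, fun hx => hpl ?_⟩
      obtain ⟨t, ht, rfl⟩ := hx
      refine ⟨t, ⟨ht.1, ht.2.trans ?_⟩, rfl⟩
      have h1 : j ≤ (j - 1) + 1 := by omega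
      have h2 : (j : ℝ) ≤ ((j - 1 + 1 : ℕ) : ℝ) := by exact_mod_cast h1
      push_cast at h2
      exact h2
    -- the component is relatively closed
    have hpre : IsPreconnected (C ∪ {x}) :=
      conn_Cn.subset_closure subset_union_left
        (union_subset subset_closure (singleton_subset_iff.2 hxcl))
    have hsub : C ∪ {x} ⊆ Dn p k S A j δ ∩ oR δ z N :=
      union_subset Cn_sub (singleton_subset_iff.2 ⟨hxD, hxR⟩)
    exact sub_Cn hpre hsub ⟨u, Or.inl huC, huC⟩ (Or.inr rfl)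
  · right
    have h1 : x ∈ closure (Om δ S) := closure_mono (fun y hy => (Cn_sub hy).1.1) hxcl
    rw [(H327.isOpen_Om hδ S).frontier_eq]
    exact ⟨h1, hxO⟩

/-- Every point is in the closed diamond of an edge. -/
theorem avo_empty (hδ : 0 < δ) (C : Set ℂ) : Avo δ ∅ C where
  av := by
    intro x _
    have hδ' : (δ : ℂ) ≠ 0 := by exact_mod_cast hδ.ne'
    set v : ℤ × ℤ := (⌊(x / δ).re - (x / δ).im⌋, ⌊(x / δ).re + (x / δ).im⌋) with hv
    have hx : x ∈ SqD δ v := by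
      show x / δ ∈ Sq1 v
      exact ⟨⟨Int.floor_le _, (Int.lt_floor_add_one _).le⟩, Int.floor_le _,
        (Int.lt_floor_add_one _).le⟩
    obtain ⟨a, r, hu⟩ := H192.isEdge_ed v
    refine ⟨a, r, fun h => h.elim, ?_⟩
    rw [Dm_sq hδ, ← hu, H192.sq_ed]
    exact hx
  cf := fun _ _ _ _ _ => Or.inl fun h => h.elim
  pt := fun _ _ _ _ _ => Or.inl fun h => h.elim

end

end Vale.Agent.P167.H713.Q
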