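import Vale.Agent.P167.H713.Q.Sq

/-!
# P167, general `q`, [SAND-GEO]: closed squares in the enlarged domain

`exists_K`: the part of a closed square of the domain in `Om` is the part in a convex open set.
-/

set_option autoImplicit false

namespace Vale.Agent.P167.H713.Q

open Set
open Vale.Agent.P167.E6 Vale.Agent.P167.E2
open Vale.Agent.P167.H634 (RO LO SqD Sq1 sq_edge D1 D1_sq CF D1_CF c1)
open Vale.Agent.P167.H72.SD (dk)
open Vale.Agent.P167.H161 (zp Rd mem_Rd)

/-- The enlarged face. -/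
def EF (f : ℤ × ℤ) : Set ℂ :=
  {z | ((f.1 : ℝ) - 3 / 8 < z.re ∧ z.re < f.1 + 11 / 8) ∧ (f.2 : ℝ) - 3 / 8 < z.im ∧
    z.im < f.2 + 11 / 8}

theorem isOpen_EF (f : ℤ × ℤ) : IsOpen (EF f) := by
  have h1 : IsOpen {z : ℂ | (f.1 : ℝ) - 3 / 8 < z.re} := isOpen_lt continuous_const (by fun_prop)
  have h2 : IsOpen {z : ℂ | z.re < (f.1 : ℝ) + 11 / 8} := isOpen_lt (by fun_prop) continuous_const
  have h3 : IsOpen {z : ℂ | (f.2 : ℝ) - 3 / 8 < z.im} := isOpen_lt continuous_const (by fun_prop)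
  have h4 : IsOpen {z : ℂ | z.im < (f.2 : ℝ) + 11 / 8} := isOpen_lt (by fun_prop) continuous_const
  exact (h1.inter h2).inter (h3.inter h4)

theorem convex_EF (f : ℤ × ℤ) : Convex ℝ (EF f) := by
  intro x hx y hy a b ha hb hab
  obtain ⟨⟨x1, x2⟩, x3, x4⟩ := hx
  obtain ⟨⟨y1, y2⟩, y3, y4⟩ := hy
  simp only [EF, mem_ofPred_eq, Complex.add_re, Complex.add_im, Complex.real_smul, Complex.mul_re,
    Complex.mul_im, Complex.ofReal_re, Complex.ofReal_im, zero_mul, sub_zero, add_zero]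
  have hb' : b = 1 - a := by linarith
  subst hb'
  rcases ha.lt_or_eq with ha' | rfl
  · refine ⟨⟨?_, ?_⟩, ?_, ?_⟩ <;> nlinarith
  · refine ⟨⟨?_, ?_⟩, ?_, ?_⟩ <;> nlinarith

variable {S : Finset (ℤ × ℤ)}

theorem EF_sub {f : ℤ × ℤ} (hf : f ∈ S) : EF f ⊆ O1 (S : Set (ℤ × ℤ)) := by
  rintro z ⟨⟨h1, h2⟩, h3, h4⟩
  exact ⟨f, hf, h1, h2, h3, h4⟩

theorem CF_EF (f : ℤ × ℤ) : CF f ⊆ EF f := by
  rintro z ⟨⟨h1, h2⟩, h3, h4⟩
  exact ⟨⟨by linarith, by linarith⟩, by linarith, by linarith⟩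

/-- The points of the domain in the closed diamond of an edge of the polygon are in the enlarged
inner face. -/
theorem diam_one {u : ℤ × ℤ} (r : Fin 4) {w : ℂ} (hw : w ∈ D1 u (u + dir r))
    (hO : w ∈ O1 (S : Set (ℤ × ℤ))) (hg : face u (r - 1) ∉ S) : w ∈ EF (face u r) := by
  obtain ⟨f, hf, e1, e2, e3, e4⟩ := hO
  by_contra hcon
  apply hg
  have hfS : f ∈ S := hf
  suffices h : face u (r - 1) = f by rw [h]; exact hfS
  clear hg hf hfS
  revert r
  refine forall4 ?_ ?_ ?_ ?_ <;> intro hw hcon <;>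
    simp only [D1, EF, H634.abs2_le, dir0, dir1, dir2, dir3, f4_0m, f4_1m, f4_2m, f4_3m, face0, face1,
      face2, face3, Prod.fst_add, Prod.snd_add, mem_ofPred_eq, not_and_or, not_lt] at hw hcon ⊢ <;>
    push_cast at hw hcon <;> obtain ⟨a1, a2, a3, a4⟩ := hw
  · have hy : w.im ≤ u.2 - 3 / 8 := by
      rcases hcon with (h | h) | h | h <;> linarith
    have b1 : f.1 < u.1 + 1 := by
      have : (f.1 : ℝ) < u.1 + 1 := by linarith
      exact_mod_cast this
    have b2 : u.1 < f.1 + 1 := by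
      have : (u.1 : ℝ) < f.1 + 1 := by linarith
      exact_mod_cast this
    have b3 : f.2 < u.2 := by
      have : (f.2 : ℝ) < u.2 := by linarith
      exact_mod_cast this
    have b4 : u.2 < f.2 + 2 := by
      have : (u.2 : ℝ) < f.2 + 2 := by linarith
      exact_mod_cast this
    apply Prod.ext <;> simp only <;> omega
  · have hy : u.1 + 3 / 8 ≤ w.re := by
      rcases hcon with (h | h) | h | h <;> linarith
    have b1 : f.2 < u.2 + 1 := by
      have : (f.2 : ℝ) < u.2 + 1 := by linarith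
      exact_mod_cast this
    have b2 : u.2 < f.2 + 1 := by
      have : (u.2 : ℝ) < f.2 + 1 := by linarith
      exact_mod_cast this
    have b3 : f.1 < u.1 + 1 := by
      have : (f.1 : ℝ) < u.1 + 1 := by linarith
      exact_mod_cast this
    have b4 : u.1 < f.1 + 1 := by
      have : (u.1 : ℝ) < f.1 + 1 := by linarith
      exact_mod_cast this
    apply Prod.ext <;> simp only <;> omega
  · have hy : u.2 + 3 / 8 ≤ w.im := by
      rcases hcon with (h | h) | h | h <;> linarith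
    have b1 : f.1 < u.1 := by
      have : (f.1 : ℝ) < u.1 := by linarith
      exact_mod_cast this
    have b2 : u.1 < f.1 + 2 := by
      have : (u.1 : ℝ) < f.1 + 2 := by linarith
      exact_mod_cast this
    have b3 : f.2 < u.2 + 1 := by
      have : (f.2 : ℝ) < u.2 + 1 := by linarith
      exact_mod_cast this
    have b4 : u.2 < f.2 + 1 := by
      have : (u.2 : ℝ) < f.2 + 1 := by linarith
      exact_mod_cast this
    apply Prod.ext <;> simp only <;> omega
  · have hy : w.re ≤ u.1 - 3 / 8 := by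
      rcases hcon with (h | h) | h | h <;> linarith
    have b1 : f.2 < u.2 := by
      have : (f.2 : ℝ) < u.2 := by linarith
      exact_mod_cast this
    have b2 : u.2 < f.2 + 2 := by
      have : (u.2 : ℝ) < f.2 + 2 := by linarith
      exact_mod_cast this
    have b3 : f.1 < u.1 := by
      have : (f.1 : ℝ) < u.1 := by linarith
      exact_mod_cast this
    have b4 : u.1 < f.1 + 2 := by
      have : (u.1 : ℝ) < f.1 + 2 := by linarith
      exact_mod_cast this
    apply Prod.ext <;> simp only <;> omega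

theorem D1_rev (u : ℤ × ℤ) (r : Fin 4) : D1 u (u + dir r) =
    D1 (u + dir r) (u + dir r + dir (r + 2)) := by
  rw [dir_add_two', H634.D1_comm]

/-- **The part of the closed diamond of an edge of the domain in the enlarged domain.** -/
theorem exists_K1 {u : ℤ × ℤ} {r : Fin 4} (he : s(u, u + dir r) ∈ edges S) :
    ∃ K : Set ℂ, Convex ℝ K ∧ IsOpen K ∧ ∀ w ∈ D1 u (u + dir r),
      (w ∈ O1 (S : Set (ℤ × ℤ)) ↔ w ∈ K) := by
  by_cases h1 : face u r ∈ S <;> by_cases h2 : face u (r - 1) ∈ S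
  · refine ⟨univ, convex_univ, isOpen_univ, fun w hw => iff_of_true ?_ trivial⟩
    rcases D1_CF r hw with h | h
    · exact EF_sub h1 (CF_EF _ h)
    · exact EF_sub h2 (CF_EF _ h)
  · exact ⟨EF (face u r), convex_EF _, isOpen_EF _, fun w hw =>
      ⟨fun h => diam_one r hw h h2, fun h => EF_sub h1 h⟩⟩
  · refine ⟨EF (face u (r - 1)), convex_EF _, isOpen_EF _, fun w hw =>
      ⟨fun h => ?_, fun h => EF_sub h2 h⟩⟩
    have e1 : face (u + dir r) (r + 2) = face u (r - 1) := face_right u r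
    have e2 : face (u + dir r) (r + 2 - 1) = face u r := by
      have : r + 2 - 1 = r + 1 := by
        clear he h1 h2 hw e1
        revert r; decide
      rw [this, face_left]
    rw [← e1]
    rw [D1_rev] at hw
    exact diam_one (r + 2) hw h (by rw [e2]; exact h1)
  · exfalso
    rcases (mem_edges r).1 he with h | h
    · exact h1 h
    · exact h2 h

/-- Mesh `δ`. -/
theorem exists_K {δ : ℝ} (hδ : 0 < δ) {v : ℤ × ℤ} (hv : H192.ed v ∈ edges S) :
    ∃ K : Set ℂ, Convex ℝ K ∧ IsOpen K ∧ ∀ w ∈ SqD δ v, (w ∈ Om δ S ↔ w ∈ K) := by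
  obtain ⟨u, r, hur⟩ := H192.isEdge_ed v
  rw [hur] at hv
  have hv' : v = H192.sq s(u, u + dir r) := by rw [← hur, H192.sq_ed]
  obtain ⟨K, h1, h2, h3⟩ := exists_K1 hv
  have hδ' : (δ : ℂ) ≠ 0 := by exact_mod_cast hδ.ne'
  refine ⟨(fun z : ℂ => ((δ⁻¹ : ℝ) : ℂ) * z) ⁻¹' K, ?_, ?_, fun w hw => ?_⟩
  · intro x hx y hy a b ha hb hab
    have := h1 hx hy ha hb hab
    simp only [mem_preimage] at hx hy ⊢
    convert this using 1
    simp only [Complex.real_smul]
    ring
  · exact h2.preimage (by fun_prop)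
  · have e : w = (δ : ℂ) * (((δ⁻¹ : ℝ) : ℂ) * w) := by
      push_cast
      rw [mul_inv_cancel_left₀ hδ']
    have h4 : ((δ⁻¹ : ℝ) : ℂ) * w ∈ D1 u (u + dir r) := by
      rw [D1_sq, ← hv']
      have : w / (δ : ℂ) ∈ Sq1 v := hw
      have e2 : w / (δ : ℂ) = ((δ⁻¹ : ℝ) : ℂ) * w := by
        push_cast
        rw [div_eq_mul_inv, mul_comm]
      rwa [e2] at this
    have h5 := h3 _ h4
    rw [mem_preimage, ← h5]
    conv_lhs => rw [e]
    exact mem_Om hδ

end Vale.Agent.P167.H713.Q
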