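import Vale.Agent.P167.H713.Q.Chain
import Vale.Agent.P167.BR.Flat

/-!
# P167, general `q`, [SAND-GEO]: boxes of chained squares
-/

set_option autoImplicit false

namespace Vale.Agent.P167.H713.Q

open Set Relation
open Vale.Agent.P167.FKA (Cor)

/-- Two neighbouring squares have an even site in common. -/
theorem adj_even {v w : ℤ × ℤ} (h : (w.2 = v.2 ∧ (w.1 = v.1 + 1 ∨ v.1 = w.1 + 1)) ∨
    (w.1 = v.1 ∧ (w.2 = v.2 + 1 ∨ v.2 = w.2 + 1))) :
    ∃ s, (s.1 + s.2) % 2 = 0 ∧ Cor v s ∧ Cor w s := by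
  obtain ⟨a, b⟩ := v
  obtain ⟨x, y⟩ := w
  dsimp only at h
  have key : ∀ s₁ s₂ : ℤ, (s₁ = a ∨ s₁ = a + 1) → (s₂ = b ∨ s₂ = b + 1) →
      (s₁ = x ∨ s₁ = x + 1) → (s₂ = y ∨ s₂ = y + 1) → (s₁ + s₂) % 2 = 0 →
      ∃ s : ℤ × ℤ, (s.1 + s.2) % 2 = 0 ∧ Cor ((a, b) : ℤ × ℤ) s ∧ Cor ((x, y) : ℤ × ℤ) s := by
    intro s₁ s₂ h1 h2 h3 h4 h5
    exact ⟨(s₁, s₂), h5, ⟨h1, h2⟩, h3, h4⟩
  rcases h with ⟨h1, h2 | h2⟩ | ⟨h1, h2 | h2⟩
  · rcases Int.emod_two_eq_zero_or_one (a + 1 + b) with h3 | h3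
    · exact key (a + 1) b (by omega) (by omega) (by omega) (by omega) h3
    · exact key (a + 1) (b + 1) (by omega) (by omega) (by omega) (by omega) (by omega)
  · rcases Int.emod_two_eq_zero_or_one (a + b) with h3 | h3
    · exact key a b (by omega) (by omega) (by omega) (by omega) h3
    · exact key a (b + 1) (by omega) (by omega) (by omega) (by omega) (by omega)
  · rcases Int.emod_two_eq_zero_or_one (a + (b + 1)) with h3 | h3
    · exact key a (b + 1) (by omega) (by omega) (by omega) (by omega) h3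
    · exact key (a + 1) (b + 1) (by omega) (by omega) (by omega) (by omega) (by omega)
  · rcases Int.emod_two_eq_zero_or_one (a + b) with h3 | h3
    · exact key a b (by omega) (by omega) (by omega) (by omega) h3
    · exact key (a + 1) b (by omega) (by omega) (by omega) (by omega) (by omega)

/-- **Rectangles of squares of `T` are chained.** -/
theorem rect_EE {T S : Finset (ℤ × ℤ)} {x₀ : ℤ × ℤ} {a b c d : ℤ}
    (hT : ∀ v : ℤ × ℤ, a ≤ v.1 → v.1 ≤ b → c ≤ v.2 → v.2 ≤ d → v ∈ T)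
    (h1 : a ≤ x₀.1) (h2 : x₀.1 ≤ b) (h3 : c ≤ x₀.2) (h4 : x₀.2 ≤ d) :
    ∀ v : ℤ × ℤ, a ≤ v.1 → v.1 ≤ b → c ≤ v.2 → v.2 ≤ d → v ∈ EE T S x₀ := by
  have key : ∀ m : ℕ, ∀ v : ℤ × ℤ, a ≤ v.1 → v.1 ≤ b → c ≤ v.2 → v.2 ≤ d →
      (v.1 - x₀.1).natAbs + (v.2 - x₀.2).natAbs = m → v ∈ EE T S x₀ := by
    intro m
    induction m with
    | zero =>
      intro v g1 g2 g3 g4 g5
      have e : v = x₀ := by
        apply Prod.ext <;> omega
      rw [e]
      exact mem_EE.2 ⟨hT x₀ h1 h2 h3 h4, ReflTransGen.refl⟩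
    | succ m ih =>
      intro v g1 g2 g3 g4 g5
      obtain ⟨w, hw, k1, k2, k3, k4, k5⟩ : ∃ w : ℤ × ℤ,
          ((w.2 = v.2 ∧ (w.1 = v.1 + 1 ∨ v.1 = w.1 + 1)) ∨
            (w.1 = v.1 ∧ (w.2 = v.2 + 1 ∨ v.2 = w.2 + 1))) ∧ a ≤ w.1 ∧ w.1 ≤ b ∧ c ≤ w.2 ∧
          w.2 ≤ d ∧ (w.1 - x₀.1).natAbs + (w.2 - x₀.2).natAbs = m := by
        by_cases e1 : v.1 < x₀.1
        · exact ⟨(v.1 + 1, v.2), by simp, by simp only; omega, by simp only; omega, g3, g4,
            by simp only; omega⟩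
        · by_cases e2 : x₀.1 < v.1
          · exact ⟨(v.1 - 1, v.2), by simp, by simp only; omega, by simp only; omega, g3, g4,
              by simp only; omega⟩
          · by_cases e3 : v.2 < x₀.2
            · exact ⟨(v.1, v.2 + 1), by simp, g1, g2, by simp only; omega, by simp only; omega,
                by simp only; omega⟩
            · exact ⟨(v.1, v.2 - 1), by simp, g1, g2, by simp only; omega, by simp only; omega,
                by simp only; omega⟩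
      have hwE := ih w k1 k2 k3 k4 k5
      obtain ⟨s, hs, hvs, hws⟩ := adj_even hw
      exact EE_step hwE (hT v g1 g2 g3 g4) (Or.inl hs) hws hvs
  exact fun v g1 g2 g3 g4 => key _ v g1 g2 g3 g4 rfl

theorem hbox_EE {T S : Finset (ℤ × ℤ)} {x₀ b : ℤ × ℤ} {R : ℤ} (hT : BR.hbox b R ⊆ T)
    (hx : x₀ ∈ BR.hbox b R) : BR.hbox b R ⊆ EE T S x₀ := by
  intro v hv
  rw [BR.mem_hbox] at hx hv
  refine rect_EE (a := b.1 - R) (b := b.1 + R - 1) (c := b.2) (d := b.2 + R - 1)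
    (fun w g1 g2 g3 g4 => hT (BR.mem_hbox.2 ⟨g1, by omega, g3, by omega⟩)) hx.1 (by omega)
    hx.2.2.1 (by omega) v hv.1 (by omega) hv.2.2.1 (by omega)

end Vale.Agent.P167.H713.Q
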