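import Vale.Agent.P167.H713.Q.NLi
import Vale.Agent.P167.H72.SD.Lat3

/-!
# P167, general `q`, [SAND-GEO]: 72's `Lo` from the seam
-/

set_option autoImplicit false

namespace Vale.Agent.P167.H713.Q

open Set Filter Topology Metric Relation
open Vale.Agent.P167.E6 Vale.Agent.P167.E2
open Vale.Agent.P167.H72.SD (dk om Wr Kc LB RB WD)
open Vale.Agent.P167.FKA (Cor)

variable {n : ℕ} {p : ZMod n → ℤ × ℤ} {k : ℕ} {S : Finset (ℤ × ℤ)} {A : Finset (Sym2 (ℤ × ℤ))}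
  {j : ℕ} {δ : ℝ} {P : Finset (ℤ × ℤ)} {ζ : Cfg} {W WP arcP : Set (ℤ × ℤ)} {x₀ : ℤ × ℤ}
  {Pm O Fl : Set ℂ} {ρ R : ℕ}

/-- **72's `Lo`.** -/
theorem Seam.lo (h : Seam false p k S A j δ (Bad p k S A j δ false ρ R) P ζ W WP arcP x₀ Pm O Fl)
    (hδ : 0 < δ) (hp : IsPolygon p) (hS : Encloses p S) (hk : 0 < k) (hkn : k + 1 < n)
    (hA : A ⊆ edges S) (hj : j - 1 ≤ len p k A) (hρ : ρ ≤ R)
    (harcb : ∀ s ∈ arcP, ∃ y, y ∉ P ∧ Cor y s)
    (hmet : ∀ i ≤ j - 1, E2.fc (E2.run p k A i) ∉ S → H192.rf (E2.fc (E2.run p k A i)) ∈ W) :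
    H72.SD.Lo p k S A j (Bad p k S A j δ false ρ R)
      (EE (TT p k S A j (Bad p k S A j δ false ρ R) P) S x₀) P ζ W WP arcP := by
  have N := nl (k := k) (A := A) (j := j) hδ hp hS hA
  exact
  { bad := fun v hv => (mem_Bad.1 hv).1
    badj := fun v hv s hs hvs => badj_lo hδ hp hS hk hkn hA hj hρ
      (fun v hv s hs hvs hS' => h.lo_hT (fun v hv => (mem_Bad.1 hv).1) hv hs hvs hS') hv hs hvs
    sub := fun v hv => Finset.mem_sdiff.2 ⟨(mem_E' hv).1, (mem_E' hv).2.1⟩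
    subP := fun v hv => (mem_E' hv).2.2
    cl := fun x hx y hy hyP s hs hxs hys => h.cl hx hy hyP hs hxs hys
    t3 := fun x hx u hu s hs hxs hus o ho => h.lo_t3 N hδ hA hj hx hu hs hxs hus ho
    t4 := fun x hx y hy hyP s hs hxs hys =>
      (h.lo_t4 hδ hA hj hx hy hyP (Or.inl hs) hxs hys).1 hs
    t4o := fun x hx y hy hyP s hs hsS hxs hys =>
      (h.lo_t4 hδ hA hj hx hy hyP (Or.inr hsS) hxs hys).2 hs
    bxo := fun x hx s hs hxs hsS => h.lo_bxo hx hs hxs hsS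
    bxe := fun x hx y hy ho s hs hxs hys => h.lo_bxe N hδ hp hA hj hx hy ho hs hxs hys
    bxi := fun x hx s hs hsS hxs u hu hus y hy hyo o ho huo hyo' =>
      h.lo_bxi N hδ hp hA hj hx hs hsS hxs hu hus hy hyo ho huo hyo'
    arcb := harcb
    met := hmet }

end Vale.Agent.P167.H713.Q
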