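import Vale.Agent.P167.H713.Q.UpF
import Vale.Agent.P167.H713.Q.LoF
import Vale.Agent.P167.H713.Q.HBox
import Vale.Agent.P167.H446.G.Lit

/-!
# P167, general `q`, [SAND-GEO]: the lattice relation `Inp` from the seam
-/

set_option autoImplicit false

namespace Vale.Agent.P167.H713.Q

open Relation (ReflTransGen)
open Vale.Agent.P145.FB (PStep)
open Vale.Agent.P167.E6 Vale.Agent.P167.E2
open Vale.Agent.P167.QT
open Vale.Agent.P167.BR (hbox)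
open Vale.Agent.P167.H72.SD (dk om Wr Kc LB RB WD)
open Vale.Agent.P167.FKA (Cor)
open Vale.Agent.P167.H446.G (Cst Inp bad rS rR vd Hst)

variable {n : ℕ} {C : Cst} {p : ZMod n → ℤ × ℤ} {k : ℕ} {S : Finset (ℤ × ℤ)} {δ r s : ℝ}
  {A : Hst} {j : ℕ} {P : Sh4} {x₀ : ℤ × ℤ} {Pm O Fl : Set ℂ} {WP : Set (ℤ × ℤ)}

/-- **The upper relation.** -/
theorem inp_up (h : Seam true p k S A j δ (bad p k S δ r s A j true)
      (dom (H446.G.Nn s δ) (vd p k C.Ld s δ) P) (QT.ext (H446.G.Nn s δ) (vd p k C.Ld s δ) P) (H446.G.wf C p k S δ s) WP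
      (arcc (H446.G.Nn s δ) (vd p k C.Ld s δ) P) x₀ Pm O Fl)
    (hδ : 0 < δ) (hp : IsPolygon p) (hS : Encloses p S) (hk : 0 < k) (hkn : k + 1 < n)
    (hA : A ⊆ edges S) (hj : j - 1 ≤ len p k A) (hρ : rS s δ ≤ rR r δ)
    (hx₀ : x₀ ∈ hbox (vd p k C.Ld s δ) (H446.G.Nn s δ))
    (hT : hbox (vd p k C.Ld s δ) (H446.G.Nn s δ) ⊆ TT p k S A j (bad p k S δ r s A j true)
      (dom (H446.G.Nn s δ) (vd p k C.Ld s δ) P)) : Inp C p k S δ r s A j true P := by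
  refine ⟨EE (TT p k S A j (bad p k S δ r s A j true) (dom (H446.G.Nn s δ) (vd p k C.Ld s δ) P)) S x₀,
    hbox_EE hT hx₀, ?_⟩
  rw [if_pos rfl]
  exact h.up hδ hp hS hk hkn hA hj hρ

/-- **The lower relation.** -/
theorem inp_lo (h : Seam false p k S A j δ (bad p k S δ r s A j false)
      (dom (H446.G.Nn s δ) (vd p k C.Ld s δ) P) (QT.ext (H446.G.Nn s δ) (vd p k C.Ld s δ) P) (H446.G.wf C p k S δ s) WP
      (arcc (H446.G.Nn s δ) (vd p k C.Ld s δ) P) x₀ Pm O Fl)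
    (hδ : 0 < δ) (hp : IsPolygon p) (hS : Encloses p S) (hk : 0 < k) (hkn : k + 1 < n)
    (hA : A ⊆ edges S) (hj : j - 1 ≤ len p k A) (hρ : rS s δ ≤ rR r δ)
    (hx₀ : x₀ ∈ hbox (vd p k C.Ld s δ) (H446.G.Nn s δ))
    (hT : hbox (vd p k C.Ld s δ) (H446.G.Nn s δ) ⊆ TT p k S A j (bad p k S δ r s A j false)
      (dom (H446.G.Nn s δ) (vd p k C.Ld s δ) P))
    (hJ : ∀ v ∈ WP, ∀ w ∈ WP, ReflTransGen (PStep
        (Vale.Agent.P167.op (QT.ext (H446.G.Nn s δ) (vd p k C.Ld s δ) P) ∩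
          ((dom (H446.G.Nn s δ) (vd p k C.Ld s δ) P : Finset (ℤ × ℤ)) : Set (ℤ × ℤ))ᶜ)) v w)
    (harcb : ∀ s' ∈ arcc (H446.G.Nn s δ) (vd p k C.Ld s δ) P,
      ∃ y, y ∉ dom (H446.G.Nn s δ) (vd p k C.Ld s δ) P ∧ Cor y s')
    (hmet : ∀ i ≤ j - 1, E2.fc (E2.run p k A i) ∉ S →
      H192.rf (E2.fc (E2.run p k A i)) ∈ H446.G.wf C p k S δ s) : Inp C p k S δ r s A j false P := by
  refine ⟨EE (TT p k S A j (bad p k S δ r s A j false) (dom (H446.G.Nn s δ) (vd p k C.Ld s δ) P)) S x₀,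
    hbox_EE hT hx₀, ?_⟩
  rw [if_neg (by simp)]
  exact ⟨WP, hJ, h.lo hδ hp hS hk hkn hA hj hρ harcb hmet⟩

end Vale.Agent.P167.H713.Q
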