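import Vale.Agent.P167.H713.Q.UpS
import Vale.Agent.P167.H264.NearL

/-!
# P167, general `q`, [SAND-GEO]: the squares near the two sides
-/

set_option autoImplicit false

namespace Vale.Agent.P167.H713.Q

open Vale.Agent.P167.E6 Vale.Agent.P167.H264

variable {n : ℕ} {p : ZMod n → ℤ × ℤ} {k : ℕ} {S : Finset (ℤ × ℤ)} {A : Finset (Sym2 (ℤ × ℤ))}
  {j : ℕ} {δ : ℝ}

/-- The lattice lemmas hold. -/
theorem nl (hδ : 0 < δ) (hp : IsPolygon p) (hS : Encloses p S) (hA : A ⊆ edges S) :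
    NL p k S A j δ where
  n1 := fun _ hu _ ho hc => NearL.n1 hδ hp hS hu ho hc
  n2 := fun _ hu _ ho hc => NearL.n2 hδ hu ho hc
  n3 := fun _ hx _ hs hc hsS => NearL.n3 hδ hp hS hx hs hc hsS
  n4 := fun _ hx _ h1 h2 hc => NearL.n4 hδ hx h1 h2 hc
  n5 := fun _ hx _ hy _ hs hxs hys => NearL.n5 hA hx hy hs hxs hys

end Vale.Agent.P167.H713.Q
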