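import Vale.Agent.P167.H713.Q.UpS
import Vale.Agent.P167.H692.UpLo

/-!
# P167, general `q`, Stage II: the seam without a common part

`Seam2` : the interface without a common part. `Seam2.up2`, `Seam2.lo2` : 692's `Up2`, `Lo2`.
-/

set_option autoImplicit false

namespace Vale.Agent.P167.H713.Q

open Set Filter Topology Metric Relation
open Vale.Agent.P145.FB (PStep)
open Vale.Agent.P167.E6 Vale.Agent.P167.E2
open Vale.Agent.P167.H634 (RO LO SqD Sq1)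
open Vale.Agent.P167.H72.SD (dk om Wr Kc LB RB WD)
open Vale.Agent.P167.H161 (zp Rd mem_Rd)
open Vale.Agent.P167.FKA (Cor)

/-- The condition on the sites of the boundary of the shape: not on the pushed-out side. -/
def Arc2 (c : Bool) (P : Finset (ℤ × ℤ)) (ζ : Cfg) (s : ℤ × ℤ) : Prop :=
  if c then ∀ y, y ∉ P → Cor y s → ζ y = false
  else ((s.1 + s.2) % 2 = 0 → s ∈ Wr P ζ) ∧
    ((s.1 + s.2) % 2 = 1 → ∀ y, y ∉ P → Cor y s → ζ y = true)

/-- **The seam without a common part.** -/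
structure Seam2 {n : ℕ} (c : Bool) (p : ZMod n → ℤ × ℤ) (k : ℕ) (S : Finset (ℤ × ℤ))
    (A : Finset (Sym2 (ℤ × ℤ))) (j : ℕ) (δ : ℝ) (Bd P : Finset (ℤ × ℤ)) (ζ : Cfg)
    (x₀ : ℤ × ℤ) (Pm O : Set ℂ) : Prop where
  p1 : ∀ x ∈ P, Io δ x ⊆ Pm
  p2 : ∀ y, y ∉ P → Disjoint (Io δ y) Pm
  popen : IsOpen Pm
  x₀P : x₀ ∈ P
  x₀d : x₀ ∈ dk p k S A j
  x₀b : x₀ ∉ Bd
  ob : ∀ x ∈ dk p k S A j, x ∉ Bd → Disjoint (SqD δ x) O
  s3 : ∀ X, Seen (Dn p k S A j δ) O Pm δ x₀ X → ∀ y ∈ X,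
    ¬ NearS (Dn p k S A j δ) (Sd p k S A j δ c) (6 * δ) y
  s4 : ∀ X, Seen (Dn p k S A j δ) O Pm δ x₀ X → ∀ s, zp δ s ∈ X → zp δ s ∈ frontier Pm →
    Arc2 c P ζ s

/-- The outer faces. -/
def W2 (S : Finset (ℤ × ℤ)) : Set (ℤ × ℤ) := {t | ∃ f, f ∉ S ∧ t = H192.rf f}

/-- The free boundary sites. -/
def arc2 (c : Bool) (P : Finset (ℤ × ℤ)) (ζ : Cfg) : Set (ℤ × ℤ) :=
  if c then {s | ∀ y, y ∉ P → Cor y s → ζ y = false}
  else {s | ∃ y, y ∉ P ∧ Cor y s ∧ ζ y = false}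

section

variable {n : ℕ} {p : ZMod n → ℤ × ℤ} {k : ℕ} {S : Finset (ℤ × ℤ)} {A : Finset (Sym2 (ℤ × ℤ))}
  {j : ℕ} {δ : ℝ} {x u y s o : ℤ × ℤ} {c : Bool} {Bd P : Finset (ℤ × ℤ)} {ζ : Cfg}
  {x₀ : ℤ × ℤ} {Pm O : Set ℂ}

theorem Seam2.seam (h : Seam2 c p k S A j δ Bd P ζ x₀ Pm O) :
    Seam c p k S A j δ Bd P ζ (W2 S) (Wr P ζ) (arc2 c P ζ) x₀ Pm O ∅ where
  p1 := h.p1
  p2 := h.p2
  popen := h.popen
  x₀P := h.x₀P
  x₀d := h.x₀d
  x₀b := h.x₀b
  ob := h.ob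
  s3 := fun X hX y hy hn => absurd hn (h.s3 X hX y hy)
  s4 := by
    intro X hX s hs hf _
    have h1 := h.s4 X hX s hs hf
    unfold Arc2 at h1
    unfold Arc arc2
    cases c with
    | true =>
      simp only [if_true] at h1 ⊢
      exact ⟨fun _ => h1, fun _ => h1⟩
    | false =>
      simp only [Bool.false_eq_true, if_false] at h1 ⊢
      refine ⟨h1.1, fun h2 => ?_⟩
      rintro ⟨y, hy, hys, hζ⟩
      rw [h1.2 h2 y hy hys] at hζ
      exact Bool.noConfusion hζ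
  com := fun y hy => absurd hy (notMem_empty y)
  far := fun y hy => absurd hy (notMem_empty y)
  flo := fun y hy => absurd hy (notMem_empty y)
  flp := fun y hy => absurd hy (notMem_empty y)
  fw := fun y hy => absurd hy (notMem_empty y)
  wfl := by
    intro x _ s hs _ hS
    exact Or.inl ⟨_, hS, (H192.rf_rf' (by rw [Int.not_even_iff]; exact hs)).symm⟩
  wout := by
    rintro s ⟨f, hf, rfl⟩ _
    rw [H192.rf'_rf]
    exact hf

/-- **692's `Up2`.** -/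
theorem Seam2.up2 {ρ R : ℕ} (h : Seam2 true p k S A j δ (Bad p k S A j δ true ρ R) P ζ x₀ Pm O)
    (N : NL p k S A j δ) (hδ : 0 < δ) (hp : IsPolygon p) (hS : Encloses p S) (hk : 0 < k)
    (hkn : k + 1 < n) (hA : A ⊆ edges S) (hj : j - 1 ≤ len p k A) (hρ : ρ ≤ R) :
    H692.Up2 p k S A j (Bad p k S A j δ true ρ R)
      (EE (TT p k S A j (Bad p k S A j δ true ρ R) P) S x₀) P ζ where
  bad := fun v hv => (mem_Bad.1 hv).1
  badj := fun v hv s hs hvs => badj_up hδ hp hS hk hkn hA hj hρ hv hs hvs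
  sub := fun v hv => Finset.mem_sdiff.2 ⟨(mem_E' hv).1, (mem_E' hv).2.1⟩
  subP := fun v hv => (mem_E' hv).2.2
  cl := fun x hx y hy hyP s hs hxs hys => h.seam.cl hx hy hyP hs hxs hys
  t3 := fun x hx u hu s _ hxs hus o ho => h.seam.up_t3 N hδ hA hj hx hu hxs hus ho
  bxo := by
    intro x hx s hs hxs
    by_contra hS'
    obtain ⟨⟨w, hw, -⟩, -⟩ := h.seam.up_bxo N hδ hA hj hx hs hxs hS'
    exact hw
  bxe := by
    intro x hx y hy s hs hxs hys
    rcases N.n5 x (mem_E' hx).1 y hy s hs hxs hys with h1 | ⟨u, hu, o, ho, hus, huo, hoS⟩ |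
      ⟨u, hu, o, ho, hus, huo⟩
    · exact h1
    · exact absurd (h.seam.near_site hδ hA hj hx hu (Or.inl hs) hxs hus
        (N.n3 u hu o ho huo hoS)) (notMem_empty _)
    · exact absurd (h.seam.near_site hδ hA hj hx hu (Or.inl hs) hxs hus
        (N.n1 u hu o ho huo)) (notMem_empty _)
  t4w := fun x hx y hy hyP hζ s hs hxs hys =>
    (h.seam.up_t4w hδ hA hj hx hy hyP hζ hs hxs hys).elim
  t4 := by
    intro x hx y hy hyP s hs hxs hys
    have h1 := h.seam.up_t4 N hδ hA hj hx hy hyP hs hxs hys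
    unfold arc2 at h1
    rw [if_pos rfl] at h1
    exact h1 y hyP hys

/-- **692's `Lo2`.** -/
theorem Seam2.lo2 {ρ R : ℕ} (h : Seam2 false p k S A j δ (Bad p k S A j δ false ρ R) P ζ x₀ Pm O)
    (N : NL p k S A j δ) (hδ : 0 < δ) (hp : IsPolygon p) (hS : Encloses p S) (hk : 0 < k)
    (hkn : k + 1 < n) (hA : A ⊆ edges S) (hj : j - 1 ≤ len p k A) (hρ : ρ ≤ R) :
    H692.Lo2 p k S A j (Bad p k S A j δ false ρ R)
      (EE (TT p k S A j (Bad p k S A j δ false ρ R) P) S x₀) P ζ where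
  bad := fun v hv => (mem_Bad.1 hv).1
  badj := by
    intro v hv s hs hvs
    obtain ⟨t, ht, h1⟩ := badj_lo (W := W2 S) hδ hp hS hk hkn hA hj hρ
      (fun v hv s hs hvs hS' => h.seam.lo_hT (fun v hv => (mem_Bad.1 hv).1) hv hs hvs hS')
      hv hs hvs
    exact ⟨t, ht.symm, h1⟩
  sub := fun v hv => Finset.mem_sdiff.2 ⟨(mem_E' hv).1, (mem_E' hv).2.1⟩
  subP := fun v hv => (mem_E' hv).2.2
  cl := fun x hx y hy hyP s hs hxs hys => h.seam.cl hx hy hyP hs hxs hys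
  t3 := fun x hx u hu s hs hxs hus o ho => h.seam.lo_t3 N hδ hA hj hx hu hs hxs hus ho
  t4 := fun x hx y hy hyP s hs hxs hys =>
    (h.seam.lo_t4 hδ hA hj hx hy hyP (Or.inl hs) hxs hys).1 hs
  t4o := by
    intro x hx y hy hyP s hs hsS hxs hys
    have h1 := (h.seam.lo_t4 hδ hA hj hx hy hyP (Or.inr hsS) hxs hys).2 hs
    unfold arc2 at h1
    rw [if_neg (by simp)] at h1
    cases hζ : ζ y with
    | true => rfl
    | false => exact absurd ⟨y, hyP, hys, hζ⟩ h1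
  bxe := by
    intro x hx y hy ho s hs hxs hys
    obtain ⟨i, h1, h2, rfl⟩ := wired_of_open hp hA hy ho hs hys
    obtain ⟨w, hw, -⟩ := h.seam.near_self hδ hA hj hx (N.n4 x (mem_E' hx).1 i h1 h2 hxs)
    exact hw
  bxi := by
    intro x hx s hs hsS hxs u hu hus y hy hyo hys o ho huo hyo'
    obtain ⟨i, h1, h2, rfl⟩ := wired_of_open hp hA hy hyo ho hyo'
    exact h.seam.near_site hδ hA hj hx hu (Or.inr hsS) hxs hus (N.n4 u hu i h1 h2 huo)

end

end Vale.Agent.P167.H713.Q
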