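import Vale.Agent.P167.H713.Q.Bad
import Vale.Agent.P167.H634.CellP2
import Vale.Agent.P167.H634.CellR

/-!
# P167, general `q`, [SAND-GEO]: squares and the path

`Io δ v`: the open square. The path does not meet the open unread squares (`io_pl`) and the sites
(`site_pl`).
-/

set_option autoImplicit false

namespace Vale.Agent.P167.H713.Q

open Set
open Vale.Agent.P167.E6 Vale.Agent.P167.E2
open Vale.Agent.P167.H634 (RO LO SqD Sq1 sq_edge path_pt)
open Vale.Agent.P167.H72.SD (dk)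
open Vale.Agent.P167.H161 (zp Rd mem_Rd)
open Vale.Agent.P167.Fjord (rot adv)

/-- The open unit square. -/
def I1 (v : ℤ × ℤ) : Set ℂ :=
  {z | ((v.1 : ℝ) < z.re - z.im ∧ z.re - z.im < v.1 + 1) ∧
    (v.2 : ℝ) < z.re + z.im ∧ z.re + z.im < v.2 + 1}

/-- The open square of mesh `δ`. -/
def Io (δ : ℝ) (v : ℤ × ℤ) : Set ℂ :=
  {z | (δ * v.1 < z.re - z.im ∧ z.re - z.im < δ * (v.1 + 1)) ∧
    δ * v.2 < z.re + z.im ∧ z.re + z.im < δ * (v.2 + 1)}

theorem mem_Io {δ : ℝ} (hδ : 0 < δ) {v : ℤ × ℤ} {w : ℂ} : (δ : ℂ) * w ∈ Io δ v ↔ w ∈ I1 v := by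
  simp only [Io, I1, mem_ofPred_eq, Complex.re_ofReal_mul, Complex.im_ofReal_mul]
  rw [← mul_sub, ← mul_add]
  constructor
  · rintro ⟨⟨h1, h2⟩, h3, h4⟩
    exact ⟨⟨lt_of_mul_lt_mul_left h1 hδ.le, lt_of_mul_lt_mul_left h2 hδ.le⟩,
      lt_of_mul_lt_mul_left h3 hδ.le, lt_of_mul_lt_mul_left h4 hδ.le⟩
  · rintro ⟨⟨h1, h2⟩, h3, h4⟩
    exact ⟨⟨mul_lt_mul_of_pos_left h1 hδ, mul_lt_mul_of_pos_left h2 hδ⟩,
      mul_lt_mul_of_pos_left h3 hδ, mul_lt_mul_of_pos_left h4 hδ⟩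

theorem mem_SqD {δ : ℝ} (hδ : 0 < δ) {v : ℤ × ℤ} {z : ℂ} : z ∈ SqD δ v ↔
    (δ * v.1 ≤ z.re - z.im ∧ z.re - z.im ≤ δ * (v.1 + 1)) ∧
      δ * v.2 ≤ z.re + z.im ∧ z.re + z.im ≤ δ * (v.2 + 1) := by
  have hδ' : (δ : ℂ) ≠ 0 := by exact_mod_cast hδ.ne'
  have e : z = (δ : ℂ) * (z / δ) := (mul_div_cancel₀ _ hδ').symm
  set x : ℂ := z / δ with hx
  have e1 : z.re = δ * x.re := by rw [e, Complex.re_ofReal_mul]
  have e2 : z.im = δ * x.im := by rw [e, Complex.im_ofReal_mul]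
  have h0 : z ∈ SqD δ v ↔ x ∈ Sq1 v := by rw [hx]; rfl
  rw [h0, e1, e2, ← mul_sub, ← mul_add]
  simp only [Sq1, mem_ofPred_eq]
  constructor
  · rintro ⟨⟨h1, h2⟩, h3, h4⟩
    exact ⟨⟨mul_le_mul_of_nonneg_left h1 hδ.le, mul_le_mul_of_nonneg_left h2 hδ.le⟩,
      mul_le_mul_of_nonneg_left h3 hδ.le, mul_le_mul_of_nonneg_left h4 hδ.le⟩
  · rintro ⟨⟨h1, h2⟩, h3, h4⟩
    exact ⟨⟨le_of_mul_le_mul_left h1 hδ, le_of_mul_le_mul_left h2 hδ⟩,
      le_of_mul_le_mul_left h3 hδ, le_of_mul_le_mul_left h4 hδ⟩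

theorem Io_sub {δ : ℝ} (hδ : 0 < δ) (v : ℤ × ℤ) : Io δ v ⊆ SqD δ v := by
  rintro z ⟨⟨h1, h2⟩, h3, h4⟩
  exact (mem_SqD hδ).2 ⟨⟨h1.le, h2.le⟩, h3.le, h4.le⟩

theorem isOpen_Io (δ : ℝ) (v : ℤ × ℤ) : IsOpen (Io δ v) := by
  have h1 : IsOpen {z : ℂ | δ * v.1 < z.re - z.im} := isOpen_lt continuous_const (by fun_prop)
  have h2 : IsOpen {z : ℂ | z.re - z.im < δ * (v.1 + 1)} := isOpen_lt (by fun_prop) continuous_const
  have h3 : IsOpen {z : ℂ | δ * v.2 < z.re + z.im} := isOpen_lt continuous_const (by fun_prop)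
  have h4 : IsOpen {z : ℂ | z.re + z.im < δ * (v.2 + 1)} := isOpen_lt (by fun_prop) continuous_const
  exact (h1.inter h2).inter (h3.inter h4)

theorem isOpen_oR (δ : ℝ) (z : ℤ × ℤ) (R : ℝ) : IsOpen (oR δ z R) := by
  have h1 : IsOpen {w : ℂ | |w.re - w.im - δ * z.1| < δ * R} :=
    isOpen_lt (by fun_prop) continuous_const
  have h2 : IsOpen {w : ℂ | |w.re + w.im - δ * z.2| < δ * R} :=
    isOpen_lt (by fun_prop) continuous_const
  exact h1.inter h2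

theorem convex_oR (δ : ℝ) (z : ℤ × ℤ) (R : ℝ) : Convex ℝ (oR δ z R) := by
  intro x hx y hy a b ha hb hab
  obtain ⟨x1, x2⟩ := hx
  obtain ⟨y1, y2⟩ := hy
  rw [abs_lt] at x1 x2 y1 y2
  simp only [oR, mem_ofPred_eq, Complex.add_re, Complex.add_im, Complex.real_smul, Complex.mul_re,
    Complex.mul_im, Complex.ofReal_re, Complex.ofReal_im, zero_mul, sub_zero, add_zero]
  have hb' : b = 1 - a := by linarith
  subst hb'
  rcases ha.lt_or_eq with ha' | rfl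
  · refine ⟨abs_lt.2 ⟨?_, ?_⟩, abs_lt.2 ⟨?_, ?_⟩⟩ <;> nlinarith
  · refine ⟨abs_lt.2 ⟨?_, ?_⟩, abs_lt.2 ⟨?_, ?_⟩⟩ <;> nlinarith

theorem convex_Io (δ : ℝ) (v : ℤ × ℤ) : Convex ℝ (Io δ v) := by
  intro x hx y hy a b ha hb hab
  obtain ⟨⟨x1, x2⟩, x3, x4⟩ := hx
  obtain ⟨⟨y1, y2⟩, y3, y4⟩ := hy
  simp only [Io, mem_ofPred_eq, Complex.add_re, Complex.add_im, Complex.real_smul, Complex.mul_re,
    Complex.mul_im, Complex.ofReal_re, Complex.ofReal_im, zero_mul, sub_zero, add_zero]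
  have hb' : b = 1 - a := by linarith
  subst hb'
  rcases ha.lt_or_eq with ha' | rfl
  · refine ⟨⟨?_, ?_⟩, ?_, ?_⟩ <;> nlinarith
  · refine ⟨⟨?_, ?_⟩, ?_, ?_⟩ <;> nlinarith

/-! ### The path -/

/-- Both coordinates of the points of open squares are not integers. -/
theorem I1_ne {v : ℤ × ℤ} {w : ℂ} (h : w ∈ I1 v) (m : ℤ) : w.re - w.im ≠ m ∧ w.re + w.im ≠ m := by
  obtain ⟨⟨h1, h2⟩, h3, h4⟩ := h
  constructor
  · intro h
    rw [h] at h1 h2
    have a1 : v.1 < m := by exact_mod_cast h1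
    have a2 : m < v.1 + 1 := by exact_mod_cast h2
    omega
  · intro h
    rw [h] at h3 h4
    have a1 : v.2 < m := by exact_mod_cast h3
    have a2 : m < v.2 + 1 := by exact_mod_cast h4
    omega

theorem I1_inj {v v' : ℤ × ℤ} {w : ℂ} (h : w ∈ I1 v) (h' : w ∈ I1 v') : v = v' := by
  obtain ⟨⟨h1, h2⟩, h3, h4⟩ := h
  obtain ⟨⟨g1, g2⟩, g3, g4⟩ := h'
  have a1 : v.1 < v'.1 + 1 := by
    have : (v.1 : ℝ) < v'.1 + 1 := by linarith
    exact_mod_cast this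
  have a2 : v'.1 < v.1 + 1 := by
    have : (v'.1 : ℝ) < v.1 + 1 := by linarith
    exact_mod_cast this
  have a3 : v.2 < v'.2 + 1 := by
    have : (v.2 : ℝ) < v'.2 + 1 := by linarith
    exact_mod_cast this
  have a4 : v'.2 < v.2 + 1 := by
    have : (v'.2 : ℝ) < v.2 + 1 := by linarith
    exact_mod_cast this
  apply Prod.ext <;> omega

/-- The points of the ray from a vertex to the centre of a face are on a side of a square. -/
theorem cpt_side (θ : ℝ) (c : Medial) : ∃ m : ℤ, (cpt θ c).re - (cpt θ c).im = m ∨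
    (cpt θ c).re + (cpt θ c).im = m := by
  obtain ⟨v, r⟩ := c
  revert r
  refine forall4 ?_ ?_ ?_ ?_ <;>
    simp only [Fjord.cpt_0, Fjord.cpt_1, Fjord.cpt_2, Fjord.cpt_3]
  · exact ⟨v.1 - v.2, Or.inl (by push_cast; ring)⟩
  · exact ⟨v.1 + v.2, Or.inr (by push_cast; ring)⟩
  · exact ⟨v.1 - v.2, Or.inl (by push_cast; ring)⟩
  · exact ⟨v.1 + v.2, Or.inr (by push_cast; ring)⟩

/-- The inner points of a step are in the open square ahead. -/
theorem step_I1 (c : Medial) {σ : ℝ} (h0 : 0 < σ) (h1 : σ < 1) {d : Medial}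
    (hd : d = rot c ∨ d = adv c) :
    cpt (1 / 4) c + (σ : ℂ) * (cpt (1 / 4) d - cpt (1 / 4) c) ∈ I1 (H192.sq (ahead c)) := by
  obtain ⟨v, r⟩ := c
  unfold ahead
  rw [sq_edge]
  have key : ∀ r : Fin 4, (d = rot (v, r) ∨ d = adv (v, r)) →
      cpt (1 / 4) ((v, r) : Medial) + (σ : ℂ) * (cpt (1 / 4) d - cpt (1 / 4) ((v, r) : Medial)) ∈
        I1 (face (H192.ro v) (r + 1)) := by
    refine forall4 ?_ ?_ ?_ ?_ <;> rintro (rfl | rfl) <;>
      simp only [Fjord.adv_0, Fjord.adv_1, Fjord.adv_2, Fjord.adv_3, Fjord.rot_0, Fjord.rot_1,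
        Fjord.rot_2, Fjord.rot_3, Fjord.cpt_0, Fjord.cpt_1, Fjord.cpt_2, Fjord.cpt_3, f4_01, f4_11,
        f4_21, f4_31, face0, face1, face2, face3, H192.ro, I1, mem_ofPred_eq, Complex.add_re,
        Complex.add_im, Complex.sub_re, Complex.sub_im, Complex.re_ofReal_mul,
        Complex.im_ofReal_mul] <;> push_cast <;>
      refine ⟨⟨?_, ?_⟩, ?_, ?_⟩ <;> nlinarith
  exact key r hd

section

variable {n : ℕ} {p : ZMod n → ℤ × ℤ} {k : ℕ} {S : Finset (ℤ × ℤ)} {A : Finset (Sym2 (ℤ × ℤ))}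
  {j : ℕ} {δ : ℝ}

/-- The points of the path, mesh `1`: on a side of a square or in an open read square. -/
theorem pl_cases (hj : j - 1 ≤ len p k A) {t : ℝ} (ht : t ∈ Icc (0 : ℝ) j) :
    (∃ θ ∈ Icc (1 / 4 : ℝ) (3 / 8), ∃ c : Medial, lin (xv p k A) t = cpt θ c) ∨
      ∃ i < j - 1, lin (xv p k A) t ∈ I1 (H192.sq (ahead (run p k A i))) := by
  rcases le_or_gt t 1 with h3 | h3
  · left
    have ht0 := ht.1
    exact ⟨3 / 8 - t / 8, ⟨by linarith, by linarith⟩, cs p, lin_first h3⟩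
  · have hj1 : 1 ≤ j := by
      by_contra hcon
      have : j = 0 := by omega
      rw [this] at ht
      have := ht.2
      push_cast at this
      linarith
    have ht2 : t ≤ (j - 1 : ℕ) + 1 := by
      have := ht.2
      rw [Nat.cast_sub hj1]
      push_cast
      linarith
    obtain ⟨i, hi, σ, h0, hσ, hiτ, hlin⟩ := path_pt hj h3.le ht2
    rcases h0.lt_or_eq with h0 | rfl
    · rcases hσ.lt_or_eq with hσ | rfl
      · right
        have hi' : i < j - 1 := by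
          by_contra hcon
          have := hiτ (by omega)
          linarith
        refine ⟨i, hi', ?_⟩
        rw [hlin]
        refine step_I1 _ h0 hσ ?_
        rw [run_succ]
        by_cases h : ahead (run p k A i) ∈ wiredOpen p k A
        · exact Or.inr (next_open h)
        · exact Or.inl (next_closed h)
      · left
        refine ⟨1 / 4, ⟨le_rfl, by norm_num⟩, run p k A (i + 1), ?_⟩
        rw [hlin]
        push_cast
        ring
    · left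
      refine ⟨1 / 4, ⟨le_rfl, by norm_num⟩, run p k A i, ?_⟩
      rw [hlin]
      push_cast
      ring

/-- **The path does not meet the open unread squares.** -/
theorem io_pl (hδ : 0 < δ) (hA : A ⊆ edges S) (hj : j - 1 ≤ len p k A) {v : ℤ × ℤ}
    (hv : v ∈ dk p k S A j) {z : ℂ} (hz : z ∈ Io δ v) : z ∉ pl p k δ A '' Icc 0 (j : ℝ) := by
  rintro ⟨t, ht, rfl⟩
  have hz' : lin (xv p k A) t ∈ I1 v := (mem_Io hδ).1 hz
  rcases pl_cases hj ht with ⟨θ, -, c, h⟩ | ⟨i, hi, h⟩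
  · obtain ⟨m, hm⟩ := cpt_side θ c
    rw [h] at hz'
    have := I1_ne hz' m
    tauto
  · have e := I1_inj hz' h
    have h1 := (Finset.mem_sdiff.1 hv)
    refine h1.2 ((mem_Rd hA).2 ⟨?_, i, hi, e.symm⟩)
    rw [QG.dq_eq]
    exact h1.1

/-- Site of the plane. -/
theorem zp_coord (δ : ℝ) (s : ℤ × ℤ) : (zp δ s).re - (zp δ s).im = δ * s.1 ∧
    (zp δ s).re + (zp δ s).im = δ * s.2 := by
  rw [H161.zp_re, H161.zp_im]
  constructor <;> ring

/-- **The path does not meet the sites.** -/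
theorem site_pl (hδ : 0 < δ) (hj : j - 1 ≤ len p k A) (s : ℤ × ℤ) :
    zp δ s ∉ pl p k δ A '' Icc 0 (j : ℝ) := by
  rintro ⟨t, ht, h0⟩
  obtain ⟨e1, e2⟩ := zp_coord δ s
  rw [← h0] at e1 e2
  unfold pl at e1 e2
  rw [Complex.re_ofReal_mul, Complex.im_ofReal_mul, ← mul_sub] at e1
  rw [Complex.re_ofReal_mul, Complex.im_ofReal_mul, ← mul_add] at e2
  have g1 := mul_left_cancel₀ hδ.ne' e1
  have g2 := mul_left_cancel₀ hδ.ne' e2
  rcases pl_cases hj ht with ⟨θ, hθ, c, h⟩ | ⟨i, hi, h⟩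
  · rw [h] at g1 g2
    obtain ⟨t1, t2⟩ := hθ
    obtain ⟨v, r⟩ := c
    clear h h0
    revert r
    refine forall4 ?_ ?_ ?_ ?_ <;> intro g1 g2 <;>
      simp only [Fjord.cpt_0, Fjord.cpt_1, Fjord.cpt_2, Fjord.cpt_3] at g1 g2
    · have a1 : (v.1 : ℝ) + v.2 < s.2 := by linarith
      have a2 : (s.2 : ℝ) < v.1 + v.2 + 1 := by linarith
      have b1 : v.1 + v.2 < s.2 := by exact_mod_cast a1
      have b2 : s.2 < v.1 + v.2 + 1 := by exact_mod_cast a2
      omega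
    · have a1 : (s.1 : ℝ) < v.1 - v.2 := by linarith
      have a2 : (v.1 : ℝ) - v.2 - 1 < s.1 := by linarith
      have b1 : s.1 < v.1 - v.2 := by exact_mod_cast a1
      have b2 : v.1 - v.2 - 1 < s.1 := by exact_mod_cast a2
      omega
    · have a1 : (s.2 : ℝ) < v.1 + v.2 := by linarith
      have a2 : (v.1 : ℝ) + v.2 - 1 < s.2 := by linarith
      have b1 : s.2 < v.1 + v.2 := by exact_mod_cast a1
      have b2 : v.1 + v.2 - 1 < s.2 := by exact_mod_cast a2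
      omega
    · have a1 : (v.1 : ℝ) - v.2 < s.1 := by linarith
      have a2 : (s.1 : ℝ) < v.1 - v.2 + 1 := by linarith
      have b1 : v.1 - v.2 < s.1 := by exact_mod_cast a1
      have b2 : s.1 < v.1 - v.2 + 1 := by exact_mod_cast a2
      omega
  · exact (I1_ne h s.1).1 g1

end

end Vale.Agent.P167.H713.Q
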