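import Vale.Agent.P167.H713.Q.NLi

/-!
# P167, general `q`, [SAND-GEO]: 72's `Up` from the seam
-/

set_option autoImplicit false

namespace Vale.Agent.P167.H713.Q

open Set Filter Topology Metric Relation
open Vale.Agent.P167.E6 Vale.Agent.P167.E2
open Vale.Agent.P167.H72.SD (dk om Wr Kc LB RB WD)
open Vale.Agent.P167.FKA (Cor)

variable {n : ℕ} {p : ZMod n → ℤ × ℤ} {k : ℕ} {S : Finset (ℤ × ℤ)} {A : Finset (Sym2 (ℤ × ℤ))}
  {j : ℕ} {δ : ℝ} {P : Finset (ℤ × ℤ)} {ζ : Cfg} {W WP arcP : Set (ℤ × ℤ)} {x₀ : ℤ × ℤ}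
  {Pm O Fl : Set ℂ} {ρ R : ℕ}

/-- **72's `Up`.** -/
theorem Seam.up (h : Seam true p k S A j δ (Bad p k S A j δ true ρ R) P ζ W WP arcP x₀ Pm O Fl)
    (hδ : 0 < δ) (hp : IsPolygon p) (hS : Encloses p S) (hk : 0 < k) (hkn : k + 1 < n)
    (hA : A ⊆ edges S) (hj : j - 1 ≤ len p k A) (hρ : ρ ≤ R) :
    H72.SD.Up p k S A j (Bad p k S A j δ true ρ R)
      (EE (TT p k S A j (Bad p k S A j δ true ρ R) P) S x₀) P ζ W arcP := by
  have N := nl (k := k) (A := A) (j := j) hδ hp hS hA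
  exact
  { bad := fun v hv => (mem_Bad.1 hv).1
    badj := fun v hv s hs hvs => badj_up hδ hp hS hk hkn hA hj hρ hv hs hvs
    sub := fun v hv => Finset.mem_sdiff.2 ⟨(mem_E' hv).1, (mem_E' hv).2.1⟩
    subP := fun v hv => (mem_E' hv).2.2
    cl := fun x hx y hy hyP s hs hxs hys => h.cl hx hy hyP hs hxs hys
    bxo := fun x hx s hs hxs hsS => (h.up_bxo N hδ hA hj hx hs hxs hsS).2
    t3 := fun x hx u hu s hxs hus o ho => h.up_t3 N hδ hA hj hx hu hxs hus ho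
    t4w := fun x hx y hy hyP hζ s hs hxs hys =>
      (h.up_t4w hδ hA hj hx hy hyP hζ hs hxs hys).elim
    t4 := fun x hx y hy hyP s hs hxs hys => h.up_t4 N hδ hA hj hx hy hyP hs hxs hys
    bx := fun x hx y hy s hs hxs hys => h.up_bx N hδ hA hj hx hy hs hxs hys
    arc := fun x hx s hsW hs hxs => h.up_arc N hδ hA hj hx hsW hs hxs }

end Vale.Agent.P167.H713.Q
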